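/-
Row 239, package GEN (Section 4 of the paper).  Owner: helper123.

WHAT GEN CONSUMES.  Every field of the four structures below is a statement that another package
(XL, LOG, HIL/TAME, SPL, LC) proves; GEN takes them as hypotheses, so that nothing in GEN waits
for anybody.  The glue (`GenXL ℓ E` etc. from `Iface`) is done last.

Vocabulary: `Claimed.Agent.R239.Defs` (helper28).  `E` is a Galois extension of `ℚ`
(`Ω = ℚbar` on the source side, `S = ℚ^s` on the target side), number fields are given by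
their (finite index, clopen) subgroups, primes of `E` are maximal ideals of `𝓞 E`.
-/
import Claimed.Agent.R239.Defs

set_option autoImplicit false

namespace Claimed.Agent.R239

open NumberField Module
open scoped Pointwise

/-- number of complex places of the number field cut out by `V`. -/
noncomputable def genR2 {E : Type} [Field E] [Algebra ℚ E] (V : Subgroup Gal(E/ℚ)) : ℕ :=
  Nat.card {w : InfinitePlace (fld V) // w.IsComplex}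

/-- number of real places of the number field cut out by `V`. -/
noncomputable def genR1 {E : Type} [Field E] [Algebra ℚ E] (V : Subgroup Gal(E/ℚ)) : ℕ :=
  Nat.card {w : InfinitePlace (fld V) // w.IsReal}

/-- `GenXL ℓ E` : the facts on the character spaces `X_ℓ(M)` (package XL: I1, I2, I8). -/
structure GenXL (ℓ : ℕ) [Fact ℓ.Prime] (E : Type) [Field E] [Algebra ℚ E] : Prop where
  /-- (I1) `X_ℓ(M)` is finite dimensional. -/
  fin : ∀ V : Subgroup Gal(E/ℚ), IsOpen (V : Set Gal(E/ℚ)) →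
    FiniteDimensional ℚ_[ℓ] (XChar ℓ V)
  /-- (I1) `dim X_ℓ(M) ≤ [M : ℚ]`. -/
  dim_le : ∀ V : Subgroup Gal(E/ℚ), IsOpen (V : Set Gal(E/ℚ)) →
    finrank ℚ_[ℓ] (XChar ℓ V) ≤ V.index
  /-- (I2) `dim X_ℓ(M) - dim X_ℓ(M') ≥ r₂(M) - r₂(M')` for `M' ⊆ M`. -/
  dim_diff : ∀ V V' : Subgroup Gal(E/ℚ), IsOpen (V : Set Gal(E/ℚ)) → V ≤ V' →
    finrank ℚ_[ℓ] (XChar ℓ V') + genR2 V ≤ finrank ℚ_[ℓ] (XChar ℓ V) + genR2 V'
  /-- (I8) additive characters are unramified outside `ℓ`. -/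
  unram : ∀ (W : Subgroup Gal(E/ℚ)), IsOpen (W : Set Gal(E/ℚ)) → ∀ (x : XChar ℓ W)
    (Q : Ideal (𝓞 E)), Q.IsMaximal → ¬ Over Q ℓ → ∀ g : W, (g : Gal(E/ℚ)) ∈ inert ℚ Q → x.1 g = 0

/-- `GenHil E` : elementary Hilbert theory of the primes of `E` (package HIL). -/
structure GenHil (E : Type) [Field E] [Algebra ℚ E] : Prop where
  /-- every prime has a residue characteristic. -/
  resChar : ∀ Q : Ideal (𝓞 E), Q.IsMaximal → ∃ p : ℕ, p.Prime ∧ Over Q p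
  /-- transitivity of the Galois group on the primes over `p`. -/
  trans : ∀ (p : ℕ) (Q Q' : Ideal (𝓞 E)), p.Prime → Q.IsMaximal → Q'.IsMaximal → Over Q p →
    Over Q' p → ∃ g : Gal(E/ℚ), g • Q = Q'
  /-- decomposition groups are closed. -/
  closed : ∀ Q : Ideal (𝓞 E), Q.IsMaximal → IsClosed (decomp ℚ Q : Set Gal(E/ℚ))
  /-- `D / I` is abelian. -/
  comm : ∀ Q : Ideal (𝓞 E), Q.IsMaximal → ∀ g ∈ decomp ℚ Q, ∀ h ∈ decomp ℚ Q,
    g * h * g⁻¹ * h⁻¹ ∈ inert ℚ Q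
  /-- only finitely many rational primes ramify in a number field. -/
  ram_finite : ∀ V : Subgroup Gal(E/ℚ), IsOpen (V : Set Gal(E/ℚ)) →
    {p : ℕ | p.Prime ∧ ∃ Q : Ideal (𝓞 E), Q.IsMaximal ∧ Over Q p ∧ ¬ inert ℚ Q ≤ V}.Finite

/-- `GenSrc ℓ Ω` : what GEN needs on the source side (packages LOG, TAME). -/
structure GenSrc (ℓ : ℕ) [Fact ℓ.Prime] (Ω : Type) [Field Ω] [Algebra ℚ Ω] : Prop where
  /-- Prop 3.2 (i): a character of `G_k` vanishing at Frobenius lifts of infinitely many primes of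
  absolute degree one is zero.  (`σ ∈ V` is a Frobenius lift over `ℚ`, so `P ∩ k` has degree 1.) -/
  detect_one : ∀ (V : Subgroup Gal(Ω/ℚ)), IsOpen (V : Set Gal(Ω/ℚ)) → ∀ x : XChar ℓ V,
    {p : ℕ | p.Prime ∧ p ≠ ℓ ∧ ∃ P : Ideal (𝓞 Ω), P.IsMaximal ∧ Over P p ∧
      ∃ σ : V, IsFrob ⊤ P (σ : Gal(Ω/ℚ)) ∧ x.1 σ = 0}.Infinite → x = 0
  /-- TAME: a Frobenius lift over `ℚ` normalising a given tame generator. -/
  frob : ∀ (p : ℕ) (P : Ideal (𝓞 Ω)) (τ : Gal(Ω/ℚ)), P.IsMaximal → Over P p → p.Prime → p ≠ ℓ →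
    IsTameGen ℓ ⊤ P τ → ∃ s : Gal(Ω/ℚ), IsFrob ⊤ P s ∧ s * τ * s⁻¹ = τ ^ p
  /-- TAME/PROF: two tame generators at the same prime are conjugate (Sylow). -/
  tame_conj : ∀ (V : Subgroup Gal(Ω/ℚ)), IsOpen (V : Set Gal(Ω/ℚ)) → ∀ (P : Ideal (𝓞 Ω))
    (τ τ' : Gal(Ω/ℚ)), P.IsMaximal → ¬ Over P ℓ → IsTameGen ℓ V P τ → IsTameGen ℓ V P τ' →
    ∃ i ∈ inert ℚ P ⊓ V, τ' ∈ closure (Subgroup.zpowers (i * τ * i⁻¹) : Set Gal(Ω/ℚ))
  /-- `log χ_ℓ` is an additive character. -/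
  logchi : (fun g => logChi ℓ ℚ Ω g) ∈ XChar ℓ Gal(Ω/ℚ)

/-- `GenTgt ℓ S` : what GEN needs on the target side (packages SPL, LC). -/
structure GenTgt (ℓ : ℕ) [Fact ℓ.Prime] (S : Type) [Field S] [Algebra ℚ S] : Prop where
  /-- SPL2 (= I6, Frobenius density): infinitely many `q`, unramified in `L = fld W`, with a
  prime whose decomposition group in `Gal(L/ℚ)` is the cyclic group generated by `γ`. -/
  spl : ∀ (W : Subgroup Gal(S/ℚ)) [W.Normal], IsOpen (W : Set Gal(S/ℚ)) → ∀ γ : Gal(S/ℚ),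
    {q : ℕ | q.Prime ∧ ∃ Q : Ideal (𝓞 S), Q.IsMaximal ∧ Over Q q ∧ inert ℚ Q ≤ W ∧
      decomp ℚ Q ⊔ W = Subgroup.zpowers γ ⊔ W}.Infinite
  /-- trivial intersection of decomposition groups of distinct primes. -/
  inter : ∀ Q Q' : Ideal (𝓞 S), Q.IsMaximal → Q'.IsMaximal → ∀ g : Gal(S/ℚ),
    g ∈ decomp ℚ Q → g ∈ decomp ℚ Q' → g ≠ 1 → Q = Q'
  /-- `log χ_ℓ` is an additive character. -/
  logchi : (fun g => logChi ℓ ℚ S g) ∈ XChar ℓ Gal(S/ℚ)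
  /-- `χ_ℓ mod ℓ` is continuous: its kernel contains a clopen normal subgroup. -/
  chi_open : ∃ W : Subgroup Gal(S/ℚ), W.Normal ∧ IsOpen (W : Set Gal(S/ℚ)) ∧
    ∀ g ∈ W, PadicInt.toZMod ((chi ℓ ℚ S g : ℤ_[ℓ]ˣ) : ℤ_[ℓ]) = 1
  /-- `χ_ℓ mod ℓ` is onto `𝔽_ℓˣ`. -/
  chi_surj : ∀ u : (ZMod ℓ)ˣ, ∃ g : Gal(S/ℚ),
    PadicInt.toZMod ((chi ℓ ℚ S g : ℤ_[ℓ]ˣ) : ℤ_[ℓ]) = u

/-- `GenLC ℓ Ω S` : the partial local correspondence (package LC, Thm 2.4' in the form of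
helper28(a)), for all continuous homomorphisms `φ : V → Gal(S/ℚ)` with open image. -/
structure GenLC (ℓ : ℕ) [Fact ℓ.Prime] (Ω S : Type) [Field Ω] [Algebra ℚ Ω] [Field S]
    [Algebra ℚ S] : Prop where
  /-- an active tame generator determines a target prime `Q ∤ ℓ`; the normaliser of `⟨τ⟩` in the
  decomposition group goes to `D_Q`, compatibly with the cyclotomic characters. -/
  main : ∀ (V : Subgroup Gal(Ω/ℚ)), IsOpen (V : Set Gal(Ω/ℚ)) → ∀ φ : V →* Gal(S/ℚ),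
    Continuous φ → IsOpen (Set.range φ) → ∀ (P : Ideal (𝓞 Ω)) (τ : V), P.IsMaximal → ¬ Over P ℓ →
    IsTameGen ℓ V P (τ : Gal(Ω/ℚ)) → φ τ ≠ 1 →
    ∃ Q : Ideal (𝓞 S), Q.IsMaximal ∧ ¬ Over Q ℓ ∧ φ τ ∈ inert ℚ Q ∧
      ∀ g : V, (g : Gal(Ω/ℚ)) ∈ decomp ℚ P → (∃ n : ℕ, g * τ * g⁻¹ = τ ^ n) →
        φ g ∈ decomp ℚ Q ∧ chi ℓ ℚ S (φ g) = chi ℓ ℚ Ω (g : Gal(Ω/ℚ))
  /-- cofinite coverage of the primes of the target field `fld W`, `W ⊇ φ(V)`. -/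
  cover : ∀ (V : Subgroup Gal(Ω/ℚ)), IsOpen (V : Set Gal(Ω/ℚ)) → ∀ φ : V →* Gal(S/ℚ),
    Continuous φ → IsOpen (Set.range φ) → ∀ W : Subgroup Gal(S/ℚ), (∀ g, φ g ∈ W) →
    ∃ B : Finset ℕ, ∀ (q : ℕ) (Q : Ideal (𝓞 S)), q.Prime → q ∉ B → Q.IsMaximal → Over Q q →
      ∃ w ∈ W, ∃ (P : Ideal (𝓞 Ω)) (τ : V), P.IsMaximal ∧ ¬ Over P ℓ ∧
        IsTameGen ℓ V P (τ : Gal(Ω/ℚ)) ∧ φ τ ≠ 1 ∧ φ τ ∈ inert ℚ (w • Q)

end Claimed.Agent.R239
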