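/-
Row 239, package GEN: the conjugation representation on `X(W)` and its invariants.
-/
import Claimed.Agent.R239.GEN.Hyp

set_option autoImplicit false

namespace Claimed.Agent.R239

open NumberField Module
open scoped Pointwise

section inv

variable {G : Type*} [Group G] [TopologicalSpace G] [IsTopologicalGroup G]

/-- conjugation as a representation of `G` on `X(W)`. -/
noncomputable def genConjRep (ℓ : ℕ) [Fact ℓ.Prime] (W : Subgroup G) [W.Normal] :
    Representation ℚ_[ℓ] G (XChar ℓ W) where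
  toFun g := XChar.conj W g
  map_one' := by
    ext x h
    simp
  map_mul' g g' := by
    ext x h
    simp [mul_assoc]

@[simp] theorem genConjRep_apply (ℓ : ℕ) [Fact ℓ.Prime] (W : Subgroup G) [W.Normal] (g : G) :
    genConjRep ℓ W g = XChar.conj W g := rfl

theorem gen_conj_mul {ℓ : ℕ} [Fact ℓ.Prime] (W : Subgroup G) [W.Normal] (g g' : G)
    (x : XChar ℓ W) : XChar.conj W (g * g') x = XChar.conj W g (XChar.conj W g' x) := by
  have := congrArg (fun f => f x) ((genConjRep ℓ W).map_mul g g')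
  exact this

theorem gen_conj_one {ℓ : ℕ} [Fact ℓ.Prime] (W : Subgroup G) [W.Normal]
    (x : XChar ℓ W) : XChar.conj W (1 : G) x = x := by
  have := congrArg (fun f => f x) ((genConjRep ℓ W).map_one)
  exact this

/-- `W` acts trivially on `X(W)`. -/
theorem gen_conj_of_mem {ℓ : ℕ} [Fact ℓ.Prime] (W : Subgroup G) [W.Normal] {w : G} (hw : w ∈ W)
    (x : XChar ℓ W) : XChar.conj W w x = x := by
  ext h
  rw [XChar.conj_apply]
  have : (⟨w⁻¹ * h.1 * w, by simpa using ‹W.Normal›.conj_mem h.1 h.2 w⁻¹⟩ : W)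
      = (⟨w, hw⟩ : W)⁻¹ * h * (⟨w, hw⟩ : W)⁻¹⁻¹ := by
    ext; simp
  rw [this, XChar.map_conj]

/-- the action on `X(W)` only depends on the class mod `W`. -/
theorem gen_conj_congr {ℓ : ℕ} [Fact ℓ.Prime] (W : Subgroup G) [W.Normal] {g g' : G}
    (h : g⁻¹ * g' ∈ W) (x : XChar ℓ W) : XChar.conj W g' x = XChar.conj W g x := by
  have : g' = g * (g⁻¹ * g') := by group
  rw [this, gen_conj_mul, gen_conj_of_mem W h]

/-- `X(W)^J` : the characters of the normal subgroup `W` fixed by conjugation by `J`. -/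
def genXInv (ℓ : ℕ) [Fact ℓ.Prime] (W : Subgroup G) [W.Normal] (J : Subgroup G) :
    Submodule ℚ_[ℓ] (XChar ℓ W) where
  carrier := {x | ∀ g ∈ J, XChar.conj W g x = x}
  zero_mem' := fun g _ => by simp
  add_mem' := fun {a b} ha hb g hg => by
    simp only [Set.mem_ofPred_eq] at ha hb
    simp [ha g hg, hb g hg]
  smul_mem' := fun c v hv g hg => by
    simp only [Set.mem_ofPred_eq] at hv
    simp [hv g hg]

theorem gen_mem_xinv {ℓ : ℕ} [Fact ℓ.Prime] (W : Subgroup G) [W.Normal] (J : Subgroup G)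
    (x : XChar ℓ W) : x ∈ genXInv ℓ W J ↔ ∀ g ∈ J, XChar.conj W g x = x := Iff.rfl

/-- the stabiliser of a character. -/
def genStab {ℓ : ℕ} [Fact ℓ.Prime] (W : Subgroup G) [W.Normal] (x : XChar ℓ W) : Subgroup G where
  carrier := {g | XChar.conj W g x = x}
  one_mem' := gen_conj_one W x
  mul_mem' := fun {a b} ha hb => by
    simp only [Set.mem_ofPred_eq] at ha hb ⊢
    rw [gen_conj_mul, hb, ha]
  inv_mem' := fun {a} ha => by
    simp only [Set.mem_ofPred_eq] at ha ⊢
    have h1 := gen_conj_mul W a⁻¹ a x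
    rw [inv_mul_cancel, gen_conj_one, ha] at h1
    exact h1.symm

theorem gen_xinv_sup {ℓ : ℕ} [Fact ℓ.Prime] (W : Subgroup G) [W.Normal] (J : Subgroup G) :
    genXInv ℓ W (J ⊔ W) = genXInv ℓ W J := by
  apply le_antisymm
  · intro x hx g hg
    exact hx g ((le_sup_left : J ≤ J ⊔ W) hg)
  · intro x hx g hg
    have h1 : J ≤ genStab W x := fun g hg => hx g hg
    have h2 : W ≤ genStab W x := fun g hg => gen_conj_of_mem W hg x
    exact (sup_le h1 h2) hg

theorem gen_sum_shift {M : Type*} [AddCommGroup M] (f : ℕ → M) (k : ℕ) (h : f k = f 0) :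
    ∑ i ∈ Finset.range k, f (i + 1) = ∑ i ∈ Finset.range k, f i := by
  have h1 := Finset.sum_range_succ f k
  have h2 := Finset.sum_range_succ' f k
  rw [h1, h] at h2
  exact (add_right_cancel h2).symm

/-- the norm `∑_{i<k} γ^i v` is fixed by `γ` if `γ^k ∈ W`. -/
theorem gen_norm_mem_xinv {ℓ : ℕ} [Fact ℓ.Prime] (W : Subgroup G) [W.Normal] (γ : G) (k : ℕ)
    (hγ : γ ^ k ∈ W) (v : XChar ℓ W) :
    ∑ i ∈ Finset.range k, XChar.conj W (γ ^ i) v ∈ genXInv ℓ W (Subgroup.zpowers γ) := by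
  have h1 : γ ∈ genStab W (∑ i ∈ Finset.range k, XChar.conj W (γ ^ i) v) := by
    change XChar.conj W γ _ = _
    rw [map_sum]
    have h2 : ∀ i, XChar.conj W γ (XChar.conj W (γ ^ i) v) = XChar.conj W (γ ^ (i + 1)) v := by
      intro i
      rw [pow_succ', gen_conj_mul]
    simp only [h2]
    apply gen_sum_shift (fun i => XChar.conj W (γ ^ i) v)
    simp only [pow_zero]
    rw [gen_conj_of_mem W hγ, gen_conj_one]
  intro g hg
  exact ((Subgroup.zpowers_le).2 h1) hg

/-- on invariants the norm is multiplication by `k`. -/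
theorem gen_norm_of_mem_xinv {ℓ : ℕ} [Fact ℓ.Prime] (W : Subgroup G) [W.Normal] (γ : G) (k : ℕ)
    (v : XChar ℓ W) (hv : v ∈ genXInv ℓ W (Subgroup.zpowers γ)) :
    ∑ i ∈ Finset.range k, XChar.conj W (γ ^ i) v = (k : ℚ_[ℓ]) • v := by
  have : ∀ i ∈ Finset.range k, XChar.conj W (γ ^ i) v = v := fun i _ =>
    hv _ (Subgroup.pow_mem _ (Subgroup.mem_zpowers γ) i)
  rw [Finset.sum_congr rfl this]
  simp [Nat.cast_smul_eq_nsmul]

theorem gen_finiteIndex_of_isOpen [CompactSpace G] (W : Subgroup G) (hW : IsOpen (W : Set G)) :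
    W.FiniteIndex := by
  have := Subgroup.quotient_finite_of_isOpen W hW
  exact Subgroup.finiteIndex_of_finite_quotient

/-- restriction to a normal subgroup of finite index is injective. -/
theorem gen_res_injective {ℓ : ℕ} [Fact ℓ.Prime] (W V : Subgroup G) [W.Normal] [W.FiniteIndex]
    (h : W ≤ V) : Function.Injective (XChar.res (ℓ := ℓ) h) := by
  rw [injective_iff_map_eq_zero]
  intro y hy
  ext g
  have h1 : (g : G) ^ W.index ∈ W := Subgroup.pow_index_mem W _
  have h2 : (XChar.res h y).1 ⟨(g : G) ^ W.index, h1⟩ = 0 := by rw [hy]; rfl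
  rw [XChar.res_apply] at h2
  have h3 : (⟨(g : G) ^ W.index, h h1⟩ : V) = g ^ W.index := by ext; simp
  rw [h3, XChar.map_pow] at h2
  have h4 : (W.index : ℚ_[ℓ]) ≠ 0 := by
    exact_mod_cast Subgroup.FiniteIndex.index_ne_zero
  simpa [h4] using h2

theorem gen_res_mem_xinv {ℓ : ℕ} [Fact ℓ.Prime] (W V : Subgroup G) [W.Normal]
    (h : W ≤ V) (y : XChar ℓ V) : XChar.res h y ∈ genXInv ℓ W V := by
  intro g hg
  ext w
  rw [XChar.conj_apply, XChar.res_apply, XChar.res_apply]
  have : (⟨g⁻¹ * w.1 * g, h (by simpa using ‹W.Normal›.conj_mem w.1 w.2 g⁻¹)⟩ : V)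
      = (⟨g, hg⟩ : V)⁻¹ * ⟨w.1, h w.2⟩ * (⟨g, hg⟩ : V)⁻¹⁻¹ := by
    ext; simp
  rw [this, XChar.map_conj]

end inv

end Claimed.Agent.R239
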