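/-
Row 239, package GEN (also subtask XCHAR.res): restriction of additive characters to a normal
subgroup of finite index identifies `X(V)` with the `V`-invariants of `X(W)`.
Pure topological group theory (`MonoidHom.transfer` divided by the index).
-/
import Claimed.Agent.R239.GEN.XInv

set_option autoImplicit false

namespace Claimed.Agent.R239

open Subgroup Subgroup.leftTransversals MulAction
open scoped Pointwise

/-- the transfer of `ϕ` evaluated on the normal subgroup `H` itself, for a conjugation invariant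
`ϕ`. -/
theorem gen_transfer_of_mem {G A : Type*} [Group G] [CommGroup A] (H : Subgroup G) [H.Normal]
    [H.FiniteIndex] (ϕ : H →* A)
    (hinv : ∀ (t : G) (w : H) (hw : t⁻¹ * (w : G) * t ∈ H), ϕ ⟨t⁻¹ * w * t, hw⟩ = ϕ w) (w : H) :
    MonoidHom.transfer ϕ (w : G) = ϕ w ^ H.index := by
  classical
  let T : H.LeftTransversal := default
  rw [MonoidHom.transfer_def ϕ T]
  unfold diff
  simp only
  have hq : ∀ q : G ⧸ H, (w : G)⁻¹ • q = q := by
    intro q
    induction q using QuotientGroup.induction_on with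
    | H g =>
      rw [MulAction.Quotient.smul_mk]
      apply QuotientGroup.eq.2
      have := ‹H.Normal›.conj_mem _ w.2 g⁻¹
      simpa [mul_assoc] using this
  have hterm : ∀ q : G ⧸ H, ∀ hm,
      ϕ ⟨((T.2.leftQuotientEquiv q : G))⁻¹ * (((w : G) • T).2.leftQuotientEquiv q : G), hm⟩
        = ϕ w := by
    intro q hm
    have e : ((T.2.leftQuotientEquiv q : G))⁻¹ * (((w : G) • T).2.leftQuotientEquiv q : G)
        = (T.2.leftQuotientEquiv q : G)⁻¹ * (w : G) * (T.2.leftQuotientEquiv q : G) := by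
      rw [smul_apply_eq_smul_apply_inv_smul, hq q, smul_eq_mul, mul_assoc]
    have hm' : (T.2.leftQuotientEquiv q : G)⁻¹ * (w : G) * (T.2.leftQuotientEquiv q : G) ∈ H :=
      e ▸ hm
    have e2 : (⟨_, hm⟩ : H) = ⟨_, hm'⟩ := Subtype.ext e
    rw [e2]
    exact hinv _ w hm'
  let _ := H.fintypeQuotientOfFiniteIndex
  rw [Finset.prod_congr rfl (fun q _ => hterm q _)]
  rw [Finset.prod_const, Finset.card_univ, Subgroup.index, Nat.card_eq_fintype_card]

variable {G : Type*} [Group G] [TopologicalSpace G] [IsTopologicalGroup G]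

/-- (I3) an invariant character of the clopen normal subgroup `W` extends to `V ≥ W`. -/
theorem gen_res_surj {ℓ : ℕ} [Fact ℓ.Prime] (W V : Subgroup G) [W.Normal] [W.FiniteIndex]
    (hW : IsOpen (W : Set G)) (h : W ≤ V) (x : XChar ℓ W)
    (hx : ∀ g ∈ V, XChar.conj W g x = x) : ∃ y : XChar ℓ V, XChar.res h y = x := by
  classical
  let H : Subgroup V := W.subgroupOf V
  let ϕ : H →* Multiplicative ℚ_[ℓ] :=
    { toFun := fun a => Multiplicative.ofAdd (x.1 ⟨a.1.1, a.2⟩)
      map_one' := by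
        have : (⟨((1 : H) : V).1, (1 : H).2⟩ : W) = 1 := rfl
        rw [this, XChar.map_one]; rfl
      map_mul' := fun a b => by
        have : (⟨((a * b : H) : V).1, (a * b : H).2⟩ : W) = ⟨a.1.1, a.2⟩ * ⟨b.1.1, b.2⟩ := rfl
        rw [this, XChar.map_mul]; rfl }
  have hinv : ∀ (t : V) (w : H) (hw : t⁻¹ * (w : V) * t ∈ H), ϕ ⟨t⁻¹ * w * t, hw⟩ = ϕ w := by
    intro t w hw
    have h1 := congrArg (fun z : XChar ℓ W => z.1 ⟨w.1.1, w.2⟩) (hx t.1 t.2)
    simp only [XChar.conj_apply] at h1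
    change Multiplicative.ofAdd _ = Multiplicative.ofAdd _
    congr 1
  let n : ℕ := H.index
  have hn : (n : ℚ_[ℓ]) ≠ 0 := by
    exact_mod_cast (Subgroup.FiniteIndex.index_ne_zero : H.index ≠ 0)
  let tr : V →* Multiplicative ℚ_[ℓ] := MonoidHom.transfer ϕ
  have htr : ∀ w : H, Multiplicative.toAdd (tr (w : V)) = n * x.1 ⟨w.1.1, w.2⟩ := by
    intro w
    have := gen_transfer_of_mem H ϕ hinv w
    change Multiplicative.toAdd (MonoidHom.transfer ϕ (w : V)) = _
    rw [this, toAdd_pow]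
    simp [ϕ, n]
  have hcont : Continuous tr := by
    apply continuous_of_continuousAt_one
    let O : Set V := {t | (t : G) ∈ W}
    have hO : IsOpen O := hW.preimage continuous_subtype_val
    have h1 : (1 : V) ∈ O := W.one_mem
    apply ContinuousOn.continuousAt _ (hO.mem_nhds h1)
    rw [continuousOn_iff_continuous_domRestrict]
    have : O.domRestrict tr = fun t : O => Multiplicative.ofAdd ((n : ℚ_[ℓ]) * x.1 ⟨t.1.1, t.2⟩) := by
      funext t
      have := htr ⟨t.1, t.2⟩
      exact this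
    rw [this]
    apply continuous_ofAdd.comp
    have hc : Continuous (fun t : O => x.1 ⟨t.1.1, t.2⟩) := (XChar.continuous x).comp
      (Continuous.subtype_mk (continuous_subtype_val.comp continuous_subtype_val) _)
    exact continuous_const.mul hc
  refine ⟨⟨fun v => (n : ℚ_[ℓ])⁻¹ * Multiplicative.toAdd (tr v), ?_, ?_⟩, ?_⟩
  · exact continuous_const.mul (continuous_toAdd.comp hcont)
  · intro a b
    simp only [map_mul, toAdd_mul, mul_add]
  · ext w
    rw [XChar.res_apply]
    change (n : ℚ_[ℓ])⁻¹ * Multiplicative.toAdd (tr ⟨w.1, h w.2⟩) = _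
    have := htr ⟨⟨w.1, h w.2⟩, w.2⟩
    simp only at this
    rw [this, ← mul_assoc, inv_mul_cancel₀ hn, one_mul]

end Claimed.Agent.R239

namespace Claimed.Agent.R239

variable {G : Type*} [Group G] [TopologicalSpace G] [IsTopologicalGroup G] [CompactSpace G]

/-- `xchar_res_injective` of `Iface.lean`. -/
theorem gen_xchar_res_injective {ℓ : ℕ} [Fact ℓ.Prime] {U V : Subgroup G}
    (hV : IsOpen (V : Set G)) (hVU : V ≤ U) : Function.Injective (XChar.res (ℓ := ℓ) hVU) := by
  have hfi : V.FiniteIndex := gen_finiteIndex_of_isOpen V hV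
  rw [injective_iff_map_eq_zero]
  intro y hy
  ext g
  obtain ⟨k, hk, -, h1⟩ := Subgroup.exists_pow_mem_of_index_ne_zero
    (Subgroup.FiniteIndex.index_ne_zero : V.index ≠ 0) (g : G)
  have h2 : (XChar.res hVU y).1 ⟨(g : G) ^ k, h1⟩ = 0 := by rw [hy]; rfl
  rw [XChar.res_apply] at h2
  have h3 : (⟨(g : G) ^ k, hVU h1⟩ : U) = g ^ k := by ext; simp
  rw [h3, XChar.map_pow] at h2
  have h4 : (k : ℚ_[ℓ]) ≠ 0 := by exact_mod_cast (by omega : k ≠ 0)
  simpa [h4] using h2

/-- `xchar_res_range` of `Iface.lean`. -/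
theorem gen_xchar_res_range {ℓ : ℕ} [Fact ℓ.Prime] {U V : Subgroup G} [V.Normal]
    (hV : IsOpen (V : Set G)) (hVU : V ≤ U) (y : XChar ℓ V) :
    y ∈ LinearMap.range (XChar.res (ℓ := ℓ) hVU) ↔ ∀ u ∈ U, XChar.conj V u y = y := by
  have hfi : V.FiniteIndex := gen_finiteIndex_of_isOpen V hV
  constructor
  · rintro ⟨z, rfl⟩
    exact gen_res_mem_xinv V U hVU z
  · intro h
    obtain ⟨z, hz⟩ := gen_res_surj V U hV hVU y h
    exact ⟨z, hz⟩

/-- (A5) `dim X(W)^J = dim X(J W)`. -/
theorem gen_finrank_xinv {ℓ : ℕ} [Fact ℓ.Prime] (W : Subgroup G) [W.Normal]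
    (hW : IsOpen (W : Set G)) (J : Subgroup G) :
    Module.finrank ℚ_[ℓ] (genXInv ℓ W J) = Module.finrank ℚ_[ℓ] (XChar ℓ ↥(J ⊔ W)) := by
  have : W.FiniteIndex := gen_finiteIndex_of_isOpen W hW
  have hle : W ≤ J ⊔ W := le_sup_right
  have hrange : LinearMap.range (XChar.res (ℓ := ℓ) hle) = genXInv ℓ W J := by
    rw [← gen_xinv_sup]
    apply le_antisymm
    · rintro _ ⟨y, rfl⟩
      exact gen_res_mem_xinv W _ hle y
    · intro x hx
      obtain ⟨y, hy⟩ := gen_res_surj W (J ⊔ W) hW hle x hx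
      exact ⟨y, hy⟩
  rw [← hrange]
  exact LinearMap.finrank_range_of_inj (gen_res_injective W _ hle)

end Claimed.Agent.R239
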