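/-
Row 239, package GEN: index counts in abstract groups and the arithmetic of Lemma 4.2.
Mathlib only.  No sorry.
-/
import Mathlib

set_option autoImplicit false

namespace Claimed.Agent.R239

theorem gen_two_pow_le_card {X : Type*} [Finite X] (m : ℕ) (f : Finset (Fin m) → X)
    (hf : Function.Injective f) : 2 ^ m ≤ Nat.card X := by
  have := Nat.card_le_card_of_injective f hf
  simpa [Nat.card_eq_fintype_card] using this

theorem gen_two_pow_le_relIndex {P : Type*} [Group P] (W K : Subgroup P) [W.FiniteIndex]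
    (m : ℕ) (e : Finset (Fin m) → P) (he : ∀ A, e A ∈ K)
    (hinj : ∀ A B, (e A)⁻¹ * e B ∈ W → A = B) : 2 ^ m ≤ W.relIndex K := by
  unfold Subgroup.relIndex Subgroup.index
  apply gen_two_pow_le_card m (fun A => (QuotientGroup.mk (⟨e A, he A⟩ : K) : K ⧸ W.subgroupOf K))
  intro A B hAB
  apply hinj
  have := QuotientGroup.eq.1 hAB
  simpa [Subgroup.mem_subgroupOf] using this

theorem gen_index_sup_mul_le {P : Type*} [Group P] (W : Subgroup P) [W.Normal] [W.FiniteIndex]
    (H : Subgroup P) (m : ℕ) (e : Finset (Fin m) → P) (he : ∀ A, e A ∈ H)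
    (hinj : ∀ A B, (e A)⁻¹ * e B ∈ W → A = B) :
    (H ⊔ W).index * 2 ^ m ≤ W.index := by
  have h1 := Subgroup.relIndex_mul_index (le_sup_right : W ≤ H ⊔ W)
  have h2 := gen_two_pow_le_relIndex W (H ⊔ W) m e (fun A => (le_sup_left : H ≤ H ⊔ W) (he A)) hinj
  rw [← h1, mul_comm]
  exact Nat.mul_le_mul_right _ h2

theorem gen_index_le_zpowers_sup {P : Type*} [Group P] (W : Subgroup P) [W.Normal]
    [W.FiniteIndex] (γ : P) (k : ℕ) (hk : 0 < k) (hγ : γ ^ k ∈ W) :
    W.index ≤ (Subgroup.zpowers γ ⊔ W).index * k := by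
  set K := Subgroup.zpowers γ ⊔ W with hK
  have h1 := Subgroup.relIndex_mul_index (le_sup_right : W ≤ K)
  have hγK : ∀ i : ℕ, γ ^ i ∈ K := fun i =>
    (le_sup_left : Subgroup.zpowers γ ≤ K) (Subgroup.pow_mem _ (Subgroup.mem_zpowers γ) i)
  have h2 : W.relIndex K ≤ k := by
    unfold Subgroup.relIndex Subgroup.index
    have hs : Function.Surjective
        (fun i : Fin k => (QuotientGroup.mk (⟨γ ^ (i : ℕ), hγK i⟩ : K) : K ⧸ W.subgroupOf K)) := by
      intro x
      induction x using QuotientGroup.induction_on with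
      | H g =>
        obtain ⟨g, hg⟩ := g
        obtain ⟨a, ha, w, hw, rfl⟩ := Subgroup.mem_sup_of_normal_right.1 hg
        obtain ⟨z, rfl⟩ := Subgroup.mem_zpowers_iff.1 ha
        have hk' : (k : ℤ) ≠ 0 := by exact_mod_cast hk.ne'
        have hpos : 0 ≤ z % k := Int.emod_nonneg _ hk'
        have hlt : z % k < k := Int.emod_lt_of_pos _ (by exact_mod_cast hk)
        refine ⟨⟨(z % k).toNat, by omega⟩, ?_⟩
        apply QuotientGroup.eq.2
        rw [Subgroup.mem_subgroupOf]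
        simp only [Subgroup.coe_mul, Subgroup.coe_inv]
        have e1 : γ ^ (z % k).toNat = γ ^ (z % k) := by
          rw [← zpow_natCast, Int.toNat_of_nonneg hpos]
        have e2 : (γ ^ (z % k))⁻¹ * (γ ^ z * w) = (γ ^ k) ^ (z / k) * w := by
          have : z = z % k + k * (z / k) := (Int.emod_add_mul_ediv z k).symm
          conv_lhs => rw [this, zpow_add, zpow_mul, zpow_natCast]
          simp only [Int.add_mul_emod_self_left, Int.emod_emod_of_dvd, dvd_refl]
          group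
        rw [e1, e2]
        exact W.mul_mem (W.zpow_mem hγ _) hw
    have := Nat.card_le_card_of_surjective _ hs
    simpa using this
  rw [← h1, mul_comm]
  exact Nat.mul_le_mul_left _ h2

theorem gen_amplify_numeric (Rn n r m iC iD r1D r2D r2C xC xD sH : ℕ) (hRn : 0 < Rn)
    (hm : 2 * n * (2 * r + 1) < 2 ^ m) (h1 : sH * 2 ^ m ≤ r * Rn) (h2 : xC + r2D ≤ xD + r2C)
    (h3 : r1D + 2 * r2D = iD) (h4 : 2 * r2C ≤ iC) (h5 : 2 * iC ≤ iD) (h6 : Rn ≤ iC * (2 * n))
    (h7 : r1D * 2 ^ m ≤ Rn) : sH + xC < xD := by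
  by_contra hcon
  push Not at hcon
  have h8 : iC ≤ r1D + 2 * sH := by omega
  set M := 2 ^ m with hM
  have h9 : Rn * M ≤ (r1D + 2 * sH) * (2 * n) * M := by
    calc Rn * M ≤ iC * (2 * n) * M := Nat.mul_le_mul_right _ h6
      _ ≤ (r1D + 2 * sH) * (2 * n) * M := by
        apply Nat.mul_le_mul_right
        exact Nat.mul_le_mul_right _ h8
  have h10 : (r1D + 2 * sH) * (2 * n) * M = (r1D * M + 2 * (sH * M)) * (2 * n) := by ring
  have h11 : (r1D * M + 2 * (sH * M)) * (2 * n) ≤ (Rn + 2 * (r * Rn)) * (2 * n) := by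
    apply Nat.mul_le_mul_right
    omega
  have h12 : (Rn + 2 * (r * Rn)) * (2 * n) = Rn * (2 * n * (2 * r + 1)) := by ring
  have h13 : Rn * (2 * n * (2 * r + 1)) < Rn * M := Nat.mul_lt_mul_of_pos_left hm hRn
  omega

/-- a cyclic group has at most one involution (formulated mod a normal subgroup `W`). -/
theorem gen_unique_involution {P : Type*} [Group P] (W : Subgroup P) [W.Normal] [W.FiniteIndex]
    (d e e₁ : P) (he : e ∈ Subgroup.zpowers d ⊔ W) (he₁ : e₁ ∈ Subgroup.zpowers d ⊔ W)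
    (h2 : e ^ 2 ∈ W) (h2' : e₁ ^ 2 ∈ W) (hn : e ∉ W) (hn' : e₁ ∉ W) : e⁻¹ * e₁ ∈ W := by
  obtain ⟨a, ha, w, hw, rfl⟩ := Subgroup.mem_sup_of_normal_right.1 he
  obtain ⟨b, hb, w', hw', rfl⟩ := Subgroup.mem_sup_of_normal_right.1 he₁
  obtain ⟨a, rfl⟩ := Subgroup.mem_zpowers_iff.1 ha
  obtain ⟨b, rfl⟩ := Subgroup.mem_zpowers_iff.1 hb
  set D : P ⧸ W := QuotientGroup.mk d with hD
  have key : ∀ x : P, x ∈ W ↔ (QuotientGroup.mk x : P ⧸ W) = 1 :=
    fun x => (QuotientGroup.eq_one_iff x).symm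
  have hwq : (QuotientGroup.mk w : P ⧸ W) = 1 := (key w).1 hw
  have hwq' : (QuotientGroup.mk w' : P ⧸ W) = 1 := (key w').1 hw'
  rw [key] at h2 h2' hn hn' ⊢
  simp only [QuotientGroup.mk_pow, QuotientGroup.mk_mul, QuotientGroup.mk_zpow, hwq, hwq', mul_one,
    QuotientGroup.mk_inv, ← hD] at h2 h2' hn hn' ⊢
  set n : ℤ := (orderOf D : ℤ) with hn0
  rw [← zpow_natCast, ← zpow_mul, ← orderOf_dvd_iff_zpow_eq_one] at h2 h2'
  rw [← orderOf_dvd_iff_zpow_eq_one] at hn hn'
  rw [← zpow_neg, ← zpow_add, ← orderOf_dvd_iff_zpow_eq_one]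
  obtain ⟨s, hs⟩ := h2
  obtain ⟨s', hs'⟩ := h2'
  push_cast at hs hs'
  have hodd : ∀ (x y : ℤ), x * 2 = n * y → ¬ n ∣ x → Odd y := by
    intro x y hxy hx
    by_contra hy
    rw [Int.not_odd_iff_even] at hy
    obtain ⟨z, rfl⟩ := hy
    apply hx
    exact ⟨z, by linarith⟩
  obtain ⟨u, rfl⟩ := hodd a s hs hn
  obtain ⟨u', rfl⟩ := hodd b s' hs' hn'
  exact ⟨u' - u, by linarith⟩

theorem gen_card_fixed_mul_le {P : Type*} [Group P] (W : Subgroup P) [W.Normal] [W.FiniteIndex]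
    (c d : P) (hc2 : c ^ 2 ∈ W) (hc : c ∉ W) (m : ℕ) (v : Finset (Fin m) → P)
    (hinj : ∀ A B, (c * v A * c⁻¹ * (v A)⁻¹)⁻¹ * (c * v B * c⁻¹ * (v B)⁻¹) ∈ W → A = B) :
    Nat.card {x : P ⧸ (Subgroup.zpowers d ⊔ W) // c • x = x} * 2 ^ m ≤ W.index := by
  classical
  set V := Subgroup.zpowers d ⊔ W with hV
  have hWV : W ≤ V := le_sup_right
  -- the preimage of the centraliser of `c` mod `W`
  let Z : Subgroup P :=
    (Subgroup.centralizer {(QuotientGroup.mk c : P ⧸ W)}).comap (QuotientGroup.mk' W)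
  have hZ : ∀ z : P, z ∈ Z ↔ (QuotientGroup.mk c : P ⧸ W) * QuotientGroup.mk z
      = QuotientGroup.mk z * QuotientGroup.mk c := by
    intro z
    simp [Z, Subgroup.mem_centralizer_iff]
  have key : ∀ x : P, x ∈ W ↔ (QuotientGroup.mk x : P ⧸ W) = 1 :=
    fun x => (QuotientGroup.eq_one_iff x).symm
  have hWZ : W ≤ Z := by
    intro w hw
    rw [hZ, (key w).1 hw]; simp
  have h1 := Subgroup.relIndex_mul_index hWZ
  have : Z.FiniteIndex := Subgroup.finiteIndex_of_le hWZ
  -- (i)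
  have hi : 2 ^ m ≤ Z.index := by
    unfold Subgroup.index
    apply gen_two_pow_le_card m (fun A => (QuotientGroup.mk (v A) : P ⧸ Z))
    intro A B hAB
    apply hinj
    have h := QuotientGroup.eq.1 hAB
    rw [hZ] at h
    rw [key]
    simp only [QuotientGroup.mk_mul, QuotientGroup.mk_inv] at h ⊢
    generalize (QuotientGroup.mk c : P ⧸ W) = C at h ⊢
    generalize (QuotientGroup.mk (v A) : P ⧸ W) = a at h ⊢
    generalize (QuotientGroup.mk (v B) : P ⧸ W) = b at h ⊢
    -- `C (a⁻¹ b) = (a⁻¹ b) C`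
    have e : C * b * C⁻¹ * b⁻¹ = C * a * C⁻¹ * a⁻¹ := by
      have h3 : C * (a⁻¹ * b) * C⁻¹ = a⁻¹ * b := by rw [h]; group
      calc C * b * C⁻¹ * b⁻¹ = C * a * C⁻¹ * (C * (a⁻¹ * b) * C⁻¹) * b⁻¹ := by group
        _ = C * a * C⁻¹ * (a⁻¹ * b) * b⁻¹ := by rw [h3]
        _ = C * a * C⁻¹ * a⁻¹ := by group
    rw [e]; group
  -- (ii)
  have hii : Nat.card {x : P ⧸ V // c • x = x} ≤ W.relIndex Z := by
    by_cases hne : Nonempty {x : P ⧸ V // c • x = x}
    · obtain ⟨⟨x₁, hx₁⟩⟩ := hne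
      have hfix : ∀ x : P ⧸ V, c • x = x → x.out⁻¹ * c * x.out ∈ V := by
        intro x hx
        have h2 : c • (QuotientGroup.mk x.out : P ⧸ V) = QuotientGroup.mk x.out := by
          rw [QuotientGroup.out_eq']; exact hx
        rw [MulAction.Quotient.smul_mk] at h2
        have h3 := QuotientGroup.eq.1 h2
        have h4 := V.inv_mem h3
        simpa [mul_assoc] using h4
      have hZmem : ∀ x : P ⧸ V, c • x = x → x.out * x₁.out⁻¹ ∈ Z := by
        intro x hx
        have hconj : ∀ g : P, (g⁻¹ * c * g) ^ 2 ∈ W ∧ g⁻¹ * c * g ∉ W := by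
          intro g
          constructor
          · have : (g⁻¹ * c * g) ^ 2 = g⁻¹ * c ^ 2 * g⁻¹⁻¹ := by
              simp only [pow_two, inv_inv, mul_assoc, mul_inv_cancel_left]
            rw [this]
            exact ‹W.Normal›.conj_mem _ hc2 _
          · intro h
            apply hc
            have := ‹W.Normal›.conj_mem _ h g
            simpa [mul_assoc] using this
        have h5 := gen_unique_involution W d _ _ (hfix x hx) (hfix x₁ hx₁) (hconj _).1 (hconj _).1
          (hconj _).2 (hconj _).2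
        rw [hZ]
        rw [key] at h5
        simp only [QuotientGroup.mk_mul, QuotientGroup.mk_inv] at h5 ⊢
        generalize (QuotientGroup.mk c : P ⧸ W) = C at h5 ⊢
        generalize (QuotientGroup.mk x.out : P ⧸ W) = g at h5 ⊢
        generalize (QuotientGroup.mk x₁.out : P ⧸ W) = g₁ at h5 ⊢
        have h6 : g₁⁻¹ * C * g₁ = g⁻¹ * C * g := by
          have := inv_mul_eq_one.1 h5
          exact this.symm
        calc C * (g * g₁⁻¹) = g * (g⁻¹ * C * g) * g₁⁻¹ := by group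
          _ = g * (g₁⁻¹ * C * g₁) * g₁⁻¹ := by rw [h6]
          _ = g * g₁⁻¹ * C := by group
      unfold Subgroup.relIndex Subgroup.index
      apply Nat.card_le_card_of_injective
        (fun x : {x : P ⧸ V // c • x = x} =>
          (QuotientGroup.mk (⟨x.1.out * x₁.out⁻¹, hZmem x.1 x.2⟩ : Z) : Z ⧸ W.subgroupOf Z))
      intro x y hxy
      have h7 := QuotientGroup.eq.1 hxy
      rw [Subgroup.mem_subgroupOf] at h7
      simp only [Subgroup.coe_mul, Subgroup.coe_inv] at h7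
      have h8 : x.1.out⁻¹ * y.1.out ∈ W := by
        have := ‹W.Normal›.conj_mem _ h7 x₁.out⁻¹
        simpa [mul_assoc] using this
      apply Subtype.ext
      rw [← QuotientGroup.out_eq' x.1, ← QuotientGroup.out_eq' y.1]
      exact QuotientGroup.eq.2 (hWV h8)
    · rw [not_nonempty_iff] at hne
      simp
  calc Nat.card {x : P ⧸ V // c • x = x} * 2 ^ m ≤ W.relIndex Z * Z.index :=
        Nat.mul_le_mul hii hi
    _ = W.index := h1

end Claimed.Agent.R239
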