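/-
Row 239, package GEN, Lemma K part A (number fields): elements whose conjugates have independent
square classes.
-/
import Claimed.Agent.R239.SPL.RatSplit

set_option autoImplicit false

namespace Claimed.Agent.R239

open NumberField
open scoped Pointwise

/-- Integers `a_j` and pairwise distinct primes `q_(h,j)` such that `h a_j` is a uniformiser at
`q_(h,j)` and a unit at all the other `q_i`. -/
theorem gen_kumA_aux (L : Type*) [Field L] [NumberField L] [IsGalois ℚ L] (m : ℕ) :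
    ∃ (a : Fin m → 𝓞 L) (q : Gal(L/ℚ) × Fin m → Ideal (𝓞 L)), (∀ i, (q i).IsPrime) ∧
      (∀ i, i.1 • a i.2 ∈ q i) ∧ (∀ i, i.1 • a i.2 ∉ q i ^ 2) ∧
      (∀ i i', i' ≠ i → i'.1 • a i'.2 ∉ q i) := by
  classical
  have hinf := SPL.spl_splitQ_infinite L
  let e := hinf.natEmbedding
  let p : Fin m → ℕ := fun j => (e j : ℕ)
  have hp : ∀ j, p j ∈ SPL.SplitQ L := fun j => (e j).2
  have hpinj : Function.Injective p := by
    intro j j' h
    exact Fin.ext (e.injective (Subtype.ext h))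
  choose w hw using fun j => SPL.spl_exists_chr_eq L (hp j).1
  have hmem : ∀ j, (p j : 𝓞 L) ∈ (w j).asIdeal := fun j => hw j ▸ SPL.spl_chr_mem L (w j)
  have hstab : ∀ j, MulAction.stabilizer Gal(L/ℚ) (w j).asIdeal = ⊥ :=
    fun j => (hp j).2 (w j) (hmem j)
  let q : Gal(L/ℚ) × Fin m → Ideal (𝓞 L) := fun i => i.1 • (w i.2).asIdeal
  have hqprime : ∀ i, (q i).IsPrime := fun i => by
    have := (w i.2).isPrime
    infer_instance
  have hpq : ∀ i, (p i.2 : 𝓞 L) ∈ q i := by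
    intro i
    have h1 : i.1 • (p i.2 : 𝓞 L) = p i.2 :=
      map_natCast (MulSemiringAction.toRingHom Gal(L/ℚ) (𝓞 L) i.1) _
    rw [← h1]
    exact Ideal.smul_mem_pointwise_smul _ _ _ (hmem i.2)
  have hqinj : Function.Injective q := by
    intro i i' h
    have hj : i.2 = i'.2 := by
      by_contra hne
      have hcop : Nat.Coprime (p i.2) (p i'.2) :=
        (Nat.coprime_primes (hp _).1 (hp _).1).mpr (fun h => hne (hpinj h))
      have h1 : (p i.2 : 𝓞 L) ∈ q i := hpq i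
      have h2 : (p i'.2 : 𝓞 L) ∈ q i := h ▸ hpq i'
      apply (hqprime i).ne_top
      rw [Ideal.eq_top_iff_one]
      obtain ⟨u, v, huv⟩ := Nat.isCoprime_iff_coprime.mpr hcop
      have h3 : (1 : 𝓞 L) = u * p i.2 + v * p i'.2 := by
        exact_mod_cast congrArg (Int.cast : ℤ → 𝓞 L) huv.symm
      rw [h3]
      exact add_mem (Ideal.mul_mem_left _ _ h1) (Ideal.mul_mem_left _ _ h2)
    have hh : i.1 = i'.1 := by
      have h1 : i'.1⁻¹ * i.1 ∈ MulAction.stabilizer Gal(L/ℚ) (w i.2).asIdeal := by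
        rw [MulAction.mem_stabilizer_iff, mul_smul]
        change i'.1⁻¹ • q i = _
        rw [h]
        change i'.1⁻¹ • i'.1 • (w i'.2).asIdeal = _
        rw [inv_smul_smul, hj]
      rw [hstab, Subgroup.mem_bot, inv_mul_eq_one] at h1
      exact h1.symm
    exact Prod.ext hh hj
  have hq0 : ∀ i, q i ≠ ⊥ := by
    intro i h
    have h1 := hpq i
    rw [h, Ideal.mem_bot] at h1
    exact (hp i.2).1.ne_zero (by exact_mod_cast h1)
  have hpi : ∀ j, ∃ π ∈ (w j).asIdeal, π ∉ (w j).asIdeal ^ 2 := by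
    intro j
    have := Ideal.exists_mem_pow_notMem_pow_succ (w j).asIdeal (w j).ne_bot (w j).isPrime.ne_top 1
    simpa using this
  choose π hπ1 hπ2 using hpi
  have hcrt : ∀ j, ∃ y : 𝓞 L, ∀ i, y - (if i = (1, j) then π j else 1) ∈ q i ^ 2 := by
    intro j
    obtain ⟨y, hy⟩ := IsDedekindDomain.exists_forall_sub_mem_ideal (s := Finset.univ) q
      (fun _ => 2) (fun i _ => Ideal.prime_of_isPrime (hq0 i) (hqprime i))
      (fun i _ i' _ hne => hqinj.ne hne) (fun i => if i.1 = (1, j) then π j else 1)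
    exact ⟨y, fun i => hy i (Finset.mem_univ i)⟩
  choose a ha using hcrt
  have hq1 : ∀ j, q (1, j) = (w j).asIdeal := fun j => one_smul _ _
  have hA0 : ∀ j, a j ∈ (w j).asIdeal := by
    intro j
    have h1 := ha j (1, j)
    rw [if_pos rfl, hq1] at h1
    have h2 := Ideal.pow_le_self two_ne_zero h1
    have h3 := add_mem h2 (hπ1 j)
    rwa [sub_add_cancel] at h3
  have hA1 : ∀ j, a j ∉ (w j).asIdeal ^ 2 := by
    intro j h
    have h1 := ha j (1, j)
    rw [if_pos rfl, hq1] at h1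
    have h3 := sub_mem h h1
    rw [sub_sub_cancel] at h3
    exact hπ2 j h3
  have hA2 : ∀ j i, i ≠ (1, j) → a j ∉ q i := by
    intro j i hi h
    have h1 := ha j i
    rw [if_neg hi] at h1
    have h2 := Ideal.pow_le_self two_ne_zero h1
    have h3 := sub_mem h h2
    rw [sub_sub_cancel] at h3
    exact (hqprime i).ne_top ((Ideal.eq_top_iff_one _).mpr h3)
  refine ⟨a, q, hqprime, fun i => ?_, fun i h => ?_, fun i i' hne h => ?_⟩
  · exact Ideal.smul_mem_pointwise_smul _ _ _ (hA0 i.2)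
  · have h1 : q i ^ 2 = i.1 • ((w i.2).asIdeal ^ 2) := by
      simp only [q, Ideal.pointwise_smul_def, Ideal.map_pow]
    rw [h1, Ideal.smul_mem_pointwise_smul_iff] at h
    exact hA1 i.2 h
  · have h1 : a i'.2 ∈ q (i'.1⁻¹ * i.1, i.2) := by
      change a i'.2 ∈ (i'.1⁻¹ * i.1) • (w i.2).asIdeal
      rw [mul_smul, Ideal.mem_pointwise_smul_iff_inv_smul_mem, inv_inv]
      exact h
    refine hA2 i'.2 _ ?_ h1
    intro h2
    apply hne
    have h3 := congrArg Prod.fst h2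
    have h4 := congrArg Prod.snd h2
    simp only at h3 h4
    rw [inv_mul_eq_one] at h3
    exact Prod.ext h3 h4.symm

/-- Part A of Lemma K.  `L/ℚ` a Galois number field.  For every `m` there are `a_0, …, a_{m-1} ∈ L`
such that no nonempty product of distinct conjugates `h (a_j)` (`h ∈ Gal(L/ℚ)`, `j < m`) is a
square in `L`. -/
theorem gen_kum_elements (L : Type*) [Field L] [NumberField L] [Algebra ℚ L] [IsGalois ℚ L]
    (m : ℕ) :
    ∃ a : Fin m → L, ∀ T : Finset (Gal(L/ℚ) × Fin m), T.Nonempty →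
      ¬ IsSquare (∏ i ∈ T, i.1 (a i.2)) := by
  classical
  obtain rfl : ‹Algebra ℚ L› = DivisionRing.toRatAlgebra := Subsingleton.elim _ _
  obtain ⟨a, q, hq, h0, h1, h2⟩ := gen_kumA_aux L m
  refine ⟨fun j => (a j : L), fun T hT hsq => ?_⟩
  obtain ⟨ρ, hρ⟩ := hsq
  have hprod : (∏ i ∈ T, i.1 ((a i.2 : 𝓞 L) : L)) = ((∏ i ∈ T, i.1 • a i.2 : 𝓞 L) : L) := by
    exact (map_prod (algebraMap (𝓞 L) L) (fun i : Gal(L/ℚ) × Fin m => i.1 • a i.2) T).symm
  have hint : IsIntegral ℤ ρ := by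
    apply IsIntegral.of_pow (n := 2) two_pos
    rw [pow_two, ← hρ, hprod]
    exact RingOfIntegers.isIntegral_coe _
  let ρ' : 𝓞 L := ⟨ρ, hint⟩
  have hρ' : ρ' ^ 2 = ∏ i ∈ T, i.1 • a i.2 := by
    apply RingOfIntegers.ext
    rw [← hprod, hρ, pow_two]
    rfl
  obtain ⟨i₀, hi₀⟩ := hT
  have := hq i₀
  rw [← Finset.mul_prod_erase T _ hi₀] at hρ'
  have hm : ρ' ^ 2 ∈ q i₀ := by
    rw [hρ']
    exact Ideal.mul_mem_right _ _ (h0 i₀)
  have hm1 : ρ' ∈ q i₀ := (hq i₀).mem_of_pow_mem 2 hm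
  have hm2 : ρ' ^ 2 ∈ q i₀ ^ 2 := Ideal.pow_mem_pow hm1 2
  rw [hρ', mul_comm] at hm2
  rcases Ideal.IsPrime.mul_mem_pow (q i₀) hm2 with h | h
  · rw [(hq i₀).prod_mem_iff] at h
    obtain ⟨i, hi, hi'⟩ := h
    exact h2 i₀ i (Finset.ne_of_mem_erase hi) hi'
  · exact h1 i₀ h

end Claimed.Agent.R239
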