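/-
Row 239, package GEN, Lemma K part B (field theory): the multiquadratic extension.  Mathlib only.
-/
import Mathlib

set_option autoImplicit false

namespace Claimed.Agent.R239

/-- A subgroup of `I → ZMod 2` contained in no hyperplane `∑_{i ∈ T} x i = 0` is everything. -/
theorem gen_kumB_top {I : Type*} [Fintype I] [DecidableEq I] (H : AddSubgroup (I → ZMod 2))
    (h : ∀ T : Finset I, T.Nonempty → ∃ x ∈ H, ∑ i ∈ T, x i ≠ 0) : H = ⊤ := by
  by_contra hne
  have hp : AddSubgroup.toZModSubmodule 2 H < ⊤ := by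
    rw [lt_top_iff_ne_top]
    intro h1
    apply hne
    rw [eq_top_iff]
    intro x _
    have : x ∈ AddSubgroup.toZModSubmodule 2 H := by rw [h1]; trivial
    exact this
  obtain ⟨f, hf, hpf⟩ := Submodule.exists_le_ker_of_lt_top _ hp
  let c : I → ZMod 2 := fun i => f fun j => if i = j then 1 else 0
  let T : Finset I := Finset.univ.filter (fun i => c i ≠ 0)
  have hfx : ∀ x, f x = ∑ i ∈ T, x i := by
    intro x
    rw [LinearMap.pi_apply_eq_sum_univ f x, Finset.sum_filter]
    refine Finset.sum_congr rfl fun i _ => ?_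
    change x i • c i = if c i ≠ 0 then x i else 0
    have h01 : ∀ y : ZMod 2, y = 0 ∨ y = 1 := by decide
    rcases h01 (c i) with h0 | h1
    · simp [h0]
    · simp [h1]
  have hT : T.Nonempty := by
    by_contra hT
    rw [Finset.not_nonempty_iff_eq_empty] at hT
    apply hf
    refine LinearMap.ext fun x => ?_
    rw [hfx, hT]
    simp
  obtain ⟨x, hx, hx0⟩ := h T hT
  apply hx0
  rw [← hfx]
  exact hpf hx

theorem gen_kumB_sign_add {S : Type*} [Field S] (x y : ZMod 2) :
    (-1 : S) ^ (x + y).val = (-1) ^ x.val * (-1) ^ y.val := by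
  rw [ZMod.val_add, ← neg_one_pow_eq_pow_mod_two, pow_add]

theorem gen_kumB_sign_sum {S : Type*} [Field S] {I : Type*} (T : Finset I) (x : I → ZMod 2) :
    ∏ i ∈ T, (-1 : S) ^ (x i).val = (-1) ^ (∑ i ∈ T, x i).val := by
  classical
  induction T using Finset.induction_on with
  | empty => simp
  | insert i T hi ih => rw [Finset.prod_insert hi, Finset.sum_insert hi, ih, gen_kumB_sign_add]

section Field

variable {k S : Type*} [Field k] [Field S] [Algebra k S]

theorem gen_kumB_map_sign (g : Gal(S/k)) (n : ℕ) (y : S) : g ((-1) ^ n * y) = (-1) ^ n * g y := by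
  rw [map_mul, map_pow, map_neg, map_one]

theorem gen_kumB_mem_W {I : Type*} (L₁ : IntermediateField k S) (r : I → S) (w : Gal(S/k)) :
    w ∈ (L₁ ⊔ IntermediateField.adjoin k (Set.range r)).fixingSubgroup ↔
      w ∈ L₁.fixingSubgroup ∧ ∀ i, w (r i) = r i := by
  rw [IntermediateField.fixingSubgroup_sup, Subgroup.mem_inf]
  refine and_congr_right fun _ => ⟨fun h i => ?_, fun h => ?_⟩
  · exact (IntermediateField.mem_fixingSubgroup_iff _ _).mp h (r i)
      (IntermediateField.subset_adjoin k _ ⟨i, rfl⟩)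
  · have h1 : IntermediateField.adjoin k (Set.range r)
        ≤ IntermediateField.fixedField (Subgroup.zpowers w) := by
      rw [IntermediateField.adjoin_le_iff]
      rintro _ ⟨i, rfl⟩
      rintro ⟨_, n, rfl⟩
      change (w ^ n) • (r i) = r i
      have : w ∈ MulAction.stabilizer Gal(S/k) (r i) := h i
      exact (Subgroup.zpow_mem _ this n)
    rw [IntermediateField.le_iff_le] at h1
    exact h1 (Subgroup.mem_zpowers w)

variable (L₁ : IntermediateField k S) {m : ℕ} (a : Fin m → L₁)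
  (r : Gal(L₁/k) × Fin m → S)

/-- an automorphism permutes the square roots up to sign. -/
theorem gen_kumB_perm [Normal k L₁] (hr : ∀ i, r i ^ 2 = ((i.1 (a i.2) : L₁) : S))
    (g : Gal(S/k)) (i : Gal(L₁/k) × Fin m) :
    g (r i) = r (AlgEquiv.restrictNormalHom L₁ g * i.1, i.2) ∨
      g (r i) = - r (AlgEquiv.restrictNormalHom L₁ g * i.1, i.2) := by
  rw [← sq_eq_sq_iff_eq_or_eq_neg, ← map_pow, hr, hr]
  exact (AlgEquiv.restrictNormal_commutes g L₁ (i.1 (a i.2))).symm

/-- elements of `Gal(S/L₁)` change the square roots by a sign. -/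
theorem gen_kumB_sign (hr : ∀ i, r i ^ 2 = ((i.1 (a i.2) : L₁) : S))
    (v : Gal(S/k)) (hv : v ∈ L₁.fixingSubgroup) (i : Gal(L₁/k) × Fin m) :
    v (r i) = r i ∨ v (r i) = - r i := by
  rw [← sq_eq_sq_iff_eq_or_eq_neg, ← map_pow, hr]
  exact (IntermediateField.mem_fixingSubgroup_iff _ _).mp hv _ (i.1 (a i.2)).2

/-- the group of sign patterns. -/
def genKumBPat : AddSubgroup (Gal(L₁/k) × Fin m → ZMod 2) where
  carrier := {x | ∃ v ∈ L₁.fixingSubgroup, ∀ i, v (r i) = (-1) ^ (x i).val * r i}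
  add_mem' := by
    rintro x y ⟨v, hv, hvx⟩ ⟨w, hw, hwy⟩
    refine ⟨v * w, mul_mem hv hw, fun i => ?_⟩
    rw [AlgEquiv.mul_apply, hwy, gen_kumB_map_sign, hvx, Pi.add_apply, gen_kumB_sign_add]
    ring
  zero_mem' := ⟨1, one_mem _, fun i => by simp⟩
  neg_mem' := by
    rintro x ⟨v, hv, hvx⟩
    refine ⟨v, hv, fun i => ?_⟩
    rw [hvx]
    have : ∀ y : ZMod 2, -y = y := by decide
    rw [Pi.neg_apply, this]

/-- all sign patterns occur. -/
theorem gen_kumB_pat_top [IsGalois k S] [FiniteDimensional k L₁]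
    (hr : ∀ i, r i ^ 2 = ((i.1 (a i.2) : L₁) : S))
    (ha : ∀ T : Finset (Gal(L₁/k) × Fin m), T.Nonempty → ¬ IsSquare (∏ i ∈ T, i.1 (a i.2))) :
    genKumBPat L₁ r = ⊤ := by
  classical
  apply gen_kumB_top
  intro T hT
  by_contra hcon
  push Not at hcon
  apply ha T hT
  have hmem : ∏ i ∈ T, r i ∈ L₁ := by
    have hfix : ∀ y : S, (∀ v ∈ L₁.fixingSubgroup, v y = y) → y ∈ L₁ := by
      intro y hy
      have := (IntermediateField.mem_fixedField_iff L₁.fixingSubgroup y).mpr hy
      rwa [InfiniteGalois.fixedField_fixingSubgroup L₁] at this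
    apply hfix
    intro v hv
    let x : Gal(L₁/k) × Fin m → ZMod 2 := fun i => if v (r i) = r i then 0 else 1
    have hx : ∀ i, v (r i) = (-1) ^ (x i).val * r i := by
      intro i
      by_cases h : v (r i) = r i
      · simp [x, h]
      · rcases gen_kumB_sign L₁ a r hr v hv i with h1 | h1
        · exact absurd h1 h
        · have hx1 : x i = 1 := if_neg h
          rw [hx1, h1, ZMod.val_one]
          ring
    have hxm : x ∈ genKumBPat L₁ r := ⟨v, hv, hx⟩
    rw [map_prod, Finset.prod_congr rfl fun i _ => hx i, Finset.prod_mul_distrib,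
      gen_kumB_sign_sum, hcon x hxm]
    simp
  refine ⟨⟨_, hmem⟩, Subtype.ext ?_⟩
  rw [IntermediateField.coe_mul, ← pow_two, ← Finset.prod_pow]
  have h1 : ((∏ i ∈ T, i.1 (a i.2) : L₁) : S) = ∏ i ∈ T, ((i.1 (a i.2) : L₁) : S) :=
    map_prod (algebraMap L₁ S) _ _
  rw [h1]
  exact Finset.prod_congr rfl fun i _ => (hr i).symm

end Field

/-- Part B of Lemma K (any base field `k` of characteristic `≠ 2`; below `k = ℚ`).
`S/k` Galois, closed under square roots; `L₁ ⊆ S` finite Galois over `k`;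
`a_j ∈ L₁` such that no nonempty product of distinct conjugates `h (a_j)` is a square in `L₁`.
Then `W = Gal(S/L)`, `L = L₁(√(h a_j))`, has the properties of Lemma K. -/
theorem gen_kum_field {k S : Type*} [Field k] [Field S] [Algebra k S] [IsGalois k S]
    (h2 : (2 : S) ≠ 0) (hsq : ∀ a : S, ∃ b : S, b ^ 2 = a)
    (L₁ : IntermediateField k S) [FiniteDimensional k L₁] [IsGalois k L₁] (m : ℕ)
    (a : Fin m → L₁)
    (ha : ∀ T : Finset (Gal(L₁/k) × Fin m), T.Nonempty → ¬ IsSquare (∏ i ∈ T, i.1 (a i.2))) :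
    ∃ W : Subgroup Gal(S/k), W.Normal ∧ IsOpen (W : Set Gal(S/k)) ∧ W ≤ L₁.fixingSubgroup ∧
      (∀ v ∈ L₁.fixingSubgroup, v ^ 2 ∈ W) ∧
      ∀ g : Gal(S/k), g ∉ L₁.fixingSubgroup → ∃ v : Finset (Fin m) → Gal(S/k),
        (∀ A, v A ∈ L₁.fixingSubgroup) ∧
        ∀ A B, (g * v A * g⁻¹ * (v A)⁻¹)⁻¹ * (g * v B * g⁻¹ * (v B)⁻¹) ∈ W → A = B := by
  classical
  choose r hr using fun i : Gal(L₁/k) × Fin m => hsq ((i.1 (a i.2) : L₁) : S)
  have hr0 : ∀ i, r i ≠ 0 := by
    intro i h0
    apply ha {i} (Finset.singleton_nonempty i)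
    rw [Finset.prod_singleton]
    refine ⟨0, Subtype.ext ?_⟩
    have := hr i
    rw [h0] at this
    simpa using this.symm
  have hnorm : L₁.fixingSubgroup.Normal :=
    (InfiniteGalois.normal_iff_isGalois L₁).mpr inferInstance
  have htop := gen_kumB_pat_top L₁ a r hr ha
  have hpat : ∀ x : Gal(L₁/k) × Fin m → ZMod 2,
      ∃ v ∈ L₁.fixingSubgroup, ∀ i, v (r i) = (-1) ^ (x i).val * r i := by
    intro x
    have : x ∈ genKumBPat L₁ r := by rw [htop]; trivial
    exact this
  have hfd : FiniteDimensional k (IntermediateField.adjoin k (Set.range r)) :=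
    IntermediateField.finiteDimensional_adjoin (fun x _ => Algebra.IsIntegral.isIntegral x)
  refine ⟨(L₁ ⊔ IntermediateField.adjoin k (Set.range r)).fixingSubgroup, ?_,
    IntermediateField.fixingSubgroup_isOpen _, ?_, ?_, ?_⟩
  · constructor
    intro w hw g
    rw [gen_kumB_mem_W] at hw ⊢
    refine ⟨hnorm.conj_mem w hw.1 g, fun i => ?_⟩
    have h1 : w (g⁻¹ (r i)) = g⁻¹ (r i) := by
      rcases gen_kumB_perm L₁ a r hr g⁻¹ i with h | h
      · rw [h, hw.2]
      · rw [h, map_neg, hw.2]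
    rw [AlgEquiv.mul_apply, AlgEquiv.mul_apply, h1]
    exact g.apply_symm_apply _
  · intro w hw
    exact ((gen_kumB_mem_W L₁ r w).mp hw).1
  · intro v hv
    rw [gen_kumB_mem_W]
    refine ⟨pow_mem hv 2, fun i => ?_⟩
    rw [pow_two, AlgEquiv.mul_apply]
    rcases gen_kumB_sign L₁ a r hr v hv i with h | h
    · rw [h, h]
    · rw [h, map_neg, h, neg_neg]
  · intro g hg
    let x : Finset (Fin m) → Gal(L₁/k) × Fin m → ZMod 2 :=
      fun A i => if i.1 = 1 ∧ i.2 ∈ A then 1 else 0
    choose v hv hvx using fun A => hpat (x A)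
    refine ⟨v, hv, fun A B hAB => ?_⟩
    have hres : AlgEquiv.restrictNormalHom L₁ g⁻¹ ≠ 1 := by
      intro h
      apply hg
      rw [← IntermediateField.restrictNormalHom_ker, MonoidHom.mem_ker]
      rwa [map_inv, inv_eq_one] at h
    have hcomm : ∀ (A : Finset (Fin m)) (j : Fin m),
        (g * v A * g⁻¹ * (v A)⁻¹) (r (1, j)) = (-1) ^ (x A (1, j)).val * r (1, j) := by
      intro A j
      have h1 : (v A)⁻¹ (r (1, j)) = (-1) ^ (x A (1, j)).val * r (1, j) := by
        change (v A).symm (r (1, j)) = _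
        rw [AlgEquiv.symm_apply_eq, gen_kumB_map_sign, hvx, ← mul_assoc, ← pow_add, ← two_mul,
          pow_mul]
        simp
      have hx0 : x A (AlgEquiv.restrictNormalHom L₁ g⁻¹ * 1, j) = 0 := by
        apply if_neg
        rintro ⟨h, -⟩
        exact hres (by simpa using h)
      have h3 : v A (r (AlgEquiv.restrictNormalHom L₁ g⁻¹ * 1, j))
          = r (AlgEquiv.restrictNormalHom L₁ g⁻¹ * 1, j) := by
        rw [hvx, hx0]
        simp
      have hy : v A (g⁻¹ (r (1, j))) = g⁻¹ (r (1, j)) := by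
        rcases gen_kumB_perm L₁ a r hr g⁻¹ (1, j) with h | h
        · rw [h, h3]
        · rw [h, map_neg, h3]
      rw [AlgEquiv.mul_apply, AlgEquiv.mul_apply, AlgEquiv.mul_apply, h1, gen_kumB_map_sign,
        gen_kumB_map_sign, hy, gen_kumB_map_sign]
      congr 1
      exact g.apply_symm_apply _
    have hW := ((gen_kumB_mem_W L₁ r _).mp hAB).2
    have hne : (1 : S) ≠ -1 := by
      intro h
      apply h2
      linear_combination h
    ext j
    have h4 := hW (1, j)
    rw [AlgEquiv.mul_apply, hcomm B j] at h4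
    change (g * v A * g⁻¹ * (v A)⁻¹).symm _ = _ at h4
    rw [AlgEquiv.symm_apply_eq, hcomm A j] at h4
    have h5 := mul_right_cancel₀ (hr0 (1, j)) h4
    by_cases hA : j ∈ A <;> by_cases hB : j ∈ B
    · simp [hA, hB]
    · exfalso
      simp [x, hA, hB, ZMod.val_one] at h5
      exact hne h5
    · exfalso
      simp [x, hA, hB, ZMod.val_one] at h5
      exact hne h5.symm
    · simp [hA, hB]

end Claimed.Agent.R239
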