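/-
Row 239, package GEN: the multiquadratic Kummer extension of Lemma 4.2 ("Lemma K").
Assembly of part A (`KumA.lean`, number fields) and part B (`KumB.lean`, field theory).
-/
import Claimed.Agent.R239.GEN.KumA
import Claimed.Agent.R239.GEN.KumB

set_option autoImplicit false

namespace Claimed.Agent.R239

/-- Lemma K.  `S/ℚ` Galois and closed under square roots, `W₁ = Gal(S/L₁)` normal and clopen.
For every `m` there is a normal clopen `W = Gal(S/L) ≤ W₁` such that `W₁/W` has exponent `2` and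
every `g ∉ W₁` has `2^m` commutators `[g, v]`, `v ∈ W₁`, which are pairwise distinct mod `W`. -/
theorem gen_kummer_amplify {S : Type*} [Field S] [Algebra ℚ S] [IsGalois ℚ S]
    (hsq : ∀ a : S, ∃ b : S, b ^ 2 = a)
    (W₁ : Subgroup Gal(S/ℚ)) [W₁.Normal] (hW₁ : IsOpen (W₁ : Set Gal(S/ℚ))) (m : ℕ) :
    ∃ W : Subgroup Gal(S/ℚ), W.Normal ∧ IsOpen (W : Set Gal(S/ℚ)) ∧ W ≤ W₁ ∧
      (∀ v ∈ W₁, v ^ 2 ∈ W) ∧
      ∀ g : Gal(S/ℚ), g ∉ W₁ → ∃ v : Finset (Fin m) → Gal(S/ℚ), (∀ A, v A ∈ W₁) ∧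
        ∀ A B, (g * v A * g⁻¹ * (v A)⁻¹)⁻¹ * (g * v B * g⁻¹ * (v B)⁻¹) ∈ W → A = B := by
  let L₁ : IntermediateField ℚ S := IntermediateField.fixedField W₁
  have hfix : L₁.fixingSubgroup = W₁ :=
    InfiniteGalois.fixingSubgroup_fixedField ⟨W₁, W₁.isClosed_of_isOpen hW₁⟩
  have hfd : FiniteDimensional ℚ L₁ := by
    rw [← InfiniteGalois.isOpen_iff_finite, hfix]; exact hW₁
  have hgal : @IsGalois ℚ _ L₁ _ (IntermediateField.algebra' L₁) := by
    rw [← InfiniteGalois.normal_iff_isGalois, hfix]; infer_instance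
  have hnf : NumberField L₁ := by
    have : CharZero S := algebraRat.charZero S
    have e : (DivisionRing.toRatAlgebra : Algebra ℚ L₁) = IntermediateField.algebra' L₁ :=
      Subsingleton.elim _ _
    have hfd' : @FiniteDimensional ℚ L₁ _ _ (DivisionRing.toRatAlgebra).toModule := e ▸ hfd
    exact @NumberField.mk L₁ _ inferInstance hfd'
  have h2 : (2 : S) ≠ 0 := by
    have : CharZero S := algebraRat.charZero S
    exact two_ne_zero
  obtain ⟨a, ha⟩ := @gen_kum_elements L₁ _ hnf (IntermediateField.algebra' L₁) hgal m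
  have := gen_kum_field h2 hsq L₁ m a ha
  rwa [hfix] at this

end Claimed.Agent.R239
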