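/-
Row 239, package GEN: counting real places of the fixed field of a subgroup.
-/
import Claimed.Agent.R239.GEN.Hyp

set_option autoImplicit false

namespace Claimed.Agent.R239

open NumberField
open scoped ComplexConjugate

/-- Two complex embeddings of a normal extension of `ℚ` differ by an automorphism. -/
theorem gen_embed_eq {E : Type} [Field E] [Algebra ℚ E] [IsGalois ℚ E] (ι ψ : E →+* ℂ) :
    ∃ g : Gal(E/ℚ), ∀ x, ψ x = ι (g x) := by
  let _ : Algebra E ℂ := ι.toAlgebra
  have : IsScalarTower ℚ E ℂ := IsScalarTower.of_algebraMap_eq' (Subsingleton.elim _ _)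
  let ψ' : E →ₐ[ℚ] ℂ := ψ.toRatAlgHom
  refine ⟨Normal.algHomEquivAut ℚ ℂ E ψ', fun x => ?_⟩
  have h := (Normal.algHomEquivAut ℚ ℂ E).left_inv ψ'
  have h2 := DFunLike.congr_fun h x
  exact h2.symm

/-- A complex conjugation of `E` exists for every embedding `ι : E → ℂ` (`E/ℚ` normal). -/
theorem gen_exists_conj {E : Type} [Field E] [Algebra ℚ E] [IsGalois ℚ E] (ι : E →+* ℂ) :
    ∃ c : Gal(E/ℚ), ∀ x, conj (ι x) = ι (c x) :=
  gen_embed_eq ι ((starRingEnd ℂ).comp ι)

/-- Every complex embedding of an intermediate field is the restriction of `ι ∘ g`. -/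
theorem gen_embed_fld {E : Type} [Field E] [Algebra ℚ E] [IsGalois ℚ E] (ι : E →+* ℂ)
    (K : IntermediateField ℚ E) (φ : K →+* ℂ) :
    ∃ g : Gal(E/ℚ), ∀ x : K, φ x = ι (g x) := by
  let _ : Algebra K ℂ := φ.toAlgebra
  have : Algebra.IsAlgebraic K E := Algebra.IsAlgebraic.tower_top (K := ℚ) K
  let ψ : E →ₐ[K] ℂ := IsAlgClosed.lift
  obtain ⟨g, hg⟩ := gen_embed_eq ι (ψ : E →+* ℂ)
  refine ⟨g, fun x => ?_⟩
  rw [← hg]
  exact (ψ.commutes x).symm

theorem gen_fixing_fld {E : Type} [Field E] [Algebra ℚ E] [IsGalois ℚ E]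
    (V : Subgroup Gal(E/ℚ)) (hV : IsOpen (V : Set Gal(E/ℚ))) :
    (fld V).fixingSubgroup = V :=
  InfiniteGalois.fixingSubgroup_fixedField ⟨V, V.isClosed_of_isOpen hV⟩

theorem gen_numberField_fld {E : Type} [Field E] [Algebra ℚ E] [IsGalois ℚ E]
    (V : Subgroup Gal(E/ℚ)) (hV : IsOpen (V : Set Gal(E/ℚ))) : NumberField (fld V) := by
  have hfd : FiniteDimensional ℚ (fld V) := by
    rw [← InfiniteGalois.isOpen_iff_finite, gen_fixing_fld V hV]
    exact hV
  have : CharZero E := algebraRat.charZero E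
  have e : (DivisionRing.toRatAlgebra : Algebra ℚ (fld V)) = IntermediateField.algebra' (fld V) :=
    Subsingleton.elim _ _
  have hfd' : @FiniteDimensional ℚ (fld V) _ _ (DivisionRing.toRatAlgebra).toModule := e ▸ hfd
  exact @NumberField.mk (fld V) _ inferInstance hfd'

/-- The real places of `fld V` inject into the cosets `gV` fixed by complex conjugation.
Sketch: a real place is `mk φ` with `conj ∘ φ = φ`; `φ = ι ∘ g|_(fld V)` for some `g` (`E/ℚ` is
normal and algebraic: the image of `φ` lies in `ι E`, and `fld V → E` extends to `E`); then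
`g⁻¹ c g` fixes `fld V`, so it lies in `V` (`V` is closed, infinite Galois correspondence).
`w ↦ g_w V` is injective since `g V` determines `ι ∘ g|_(fld V)`. -/
theorem gen_card_real_le {E : Type} [Field E] [Algebra ℚ E] [IsGalois ℚ E]
    (V : Subgroup Gal(E/ℚ)) (hV : IsOpen (V : Set Gal(E/ℚ))) (ι : E →+* ℂ) (c : Gal(E/ℚ))
    (hc : ∀ x, conj (ι x) = ι (c x)) :
    genR1 V ≤ Nat.card {x : Gal(E/ℚ) ⧸ V // c • x = x} := by
  have hfin : Finite (Gal(E/ℚ) ⧸ V) := Subgroup.quotient_finite_of_isOpen V hV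
  choose g hg using fun w : InfinitePlace (fld V) => gen_embed_fld ι (fld V) w.embedding
  have hmem : ∀ w : InfinitePlace (fld V), w.IsReal →
      c • (QuotientGroup.mk (g w) : Gal(E/ℚ) ⧸ V) = QuotientGroup.mk (g w) := by
    intro w hw
    rw [MulAction.Quotient.smul_mk, eq_comm, QuotientGroup.eq, ← gen_fixing_fld V hV,
      IntermediateField.mem_fixingSubgroup_iff]
    intro x hx
    have h1 : conj (w.embedding ⟨x, hx⟩) = w.embedding ⟨x, hx⟩ :=
      RingHom.congr_fun (ComplexEmbedding.isReal_iff.mp (InfinitePlace.isReal_iff.mp hw)) ⟨x, hx⟩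
    rw [hg w ⟨x, hx⟩, hc] at h1
    have h2 := ι.injective h1
    change (g w)⁻¹ (c (g w x)) = x
    rw [h2]
    exact (g w).symm_apply_apply x
  refine Nat.card_le_card_of_injective
    (fun w : {w : InfinitePlace (fld V) // w.IsReal} =>
      (⟨QuotientGroup.mk (g w.1), hmem w.1 w.2⟩ : {x : Gal(E/ℚ) ⧸ V // c • x = x})) ?_
  intro w w' h
  have h1 : (QuotientGroup.mk (g w.1) : Gal(E/ℚ) ⧸ V) = QuotientGroup.mk (g w'.1) :=
    congrArg Subtype.val h
  rw [QuotientGroup.eq] at h1
  apply Subtype.ext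
  rw [← InfinitePlace.mk_embedding w.1, ← InfinitePlace.mk_embedding w'.1]
  congr 1
  ext x
  rw [hg, hg]
  congr 1
  have h2 : ((g w.1)⁻¹ * g w'.1) (x : E) = x := x.2 ⟨_, h1⟩
  have h3 : (g w.1) (((g w.1)⁻¹ * g w'.1) (x : E)) = g w'.1 x := by
    change (g w.1) ((g w.1)⁻¹ (g w'.1 x)) = _
    exact (g w.1).apply_symm_apply _
  rw [← h3, h2]

/-- `r₁ + 2 r₂ = [M : ℚ]` in the subgroup vocabulary. -/
theorem gen_r1_add_two_r2 {E : Type} [Field E] [Algebra ℚ E] [IsGalois ℚ E]
    (V : Subgroup Gal(E/ℚ)) (hV : IsOpen (V : Set Gal(E/ℚ))) :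
    genR1 V + 2 * genR2 V = V.index := by
  classical
  have := gen_numberField_fld V hV
  have h := InfinitePlace.card_add_two_mul_card_eq_rank (fld V)
  have h2 := IntermediateField.finrank_eq_fixingSubgroup_index (F := ℚ) (E' := E) (fld V)
  rw [gen_fixing_fld V hV] at h2
  have e : (DivisionRing.toRatAlgebra : Algebra ℚ (fld V)) = IntermediateField.algebra' (fld V) :=
    Subsingleton.elim _ _
  have h3 : @Module.finrank ℚ (fld V) _ _ (DivisionRing.toRatAlgebra).toModule
      = @Module.finrank ℚ (fld V) _ _ (IntermediateField.algebra' (fld V)).toModule := by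
    rw [e]
  unfold genR1 genR2
  rw [Nat.card_eq_fintype_card, Nat.card_eq_fintype_card]
  exact (h.trans h3).trans h2

end Claimed.Agent.R239
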