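/-
Row 239, package GEN: Lemma 4.2 (quotient amplification).
-/
import Claimed.Agent.R239.GEN.Hyp
import Claimed.Agent.R239.GEN.Kum
import Claimed.Agent.R239.GEN.Real
import Claimed.Agent.R239.GEN.Cnt
import Claimed.Agent.R239.GEN.Res
import Claimed.Agent.R239.GenRep

set_option autoImplicit false

namespace Claimed.Agent.R239

open NumberField Module
open scoped Pointwise ComplexConjugate

/-- group-free form of the dimension count at the end of Lemma 4.2. -/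
theorem gen_exists_separating' {k V ι : Type*} [Field k] [AddCommGroup V] [Module k V]
    [FiniteDimensional k V] (Sg : V →ₗ[k] V) (XC XD : Submodule k V) (c : k) (hc : c ≠ 0)
    (hle : XC ≤ XD) (hmap : ∀ v ∈ XD, Sg v ∈ XC) (hfix : ∀ v ∈ XC, Sg v = c • v)
    (s : Finset ι) (F : ι → Submodule k V)
    (hdim : ∑ i ∈ s, finrank k (F i) + finrank k XC < finrank k XD) :
    ∃ x ∈ XD, Sg x = 0 ∧ x ∉ ⨆ i ∈ s, F i := by
  classical
  by_contra hcon
  push Not at hcon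
  have hle' : (XD ⊓ LinearMap.ker Sg : Submodule k V) ≤ ⨆ i ∈ s, F i :=
    fun x hx => hcon x hx.1 hx.2
  have h1 := Submodule.finrank_mono hle'
  have h2 := gen_finrank_biSup_le s F
  let f : XD →ₗ[k] V := Sg.comp XD.subtype
  have hrange : LinearMap.range f = XC := by
    apply le_antisymm
    · rintro _ ⟨v, rfl⟩
      exact hmap v v.2
    · intro v hv
      refine ⟨⟨c⁻¹ • v, XD.smul_mem _ (hle hv)⟩, ?_⟩
      simp only [f, LinearMap.comp_apply, Submodule.subtype_apply, map_smul]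
      rw [hfix v hv, smul_smul, inv_mul_cancel₀ hc, one_smul]
  have hker : finrank k (LinearMap.ker f) = finrank k (XD ⊓ LinearMap.ker Sg : Submodule k V) := by
    have : (LinearMap.ker f).map XD.subtype = XD ⊓ LinearMap.ker Sg := by
      ext v
      constructor
      · rintro ⟨w, hw, rfl⟩
        exact ⟨w.2, hw⟩
      · rintro ⟨h1, h2⟩
        exact ⟨⟨v, h1⟩, h2, rfl⟩
    rw [← this]
    exact (LinearEquiv.finrank_eq
      (Submodule.equivMapOfInjective _ (Submodule.injective_subtype _) _))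
  have h3 := LinearMap.finrank_range_add_finrank_ker f
  rw [hrange, hker] at h3
  omega

/-- complex conjugation on a field containing `√-1` is a nontrivial involution. -/
theorem gen_conj_props {S : Type} [Field S] [Algebra ℚ S] [IsGalois ℚ S]
    (hsq : ∀ a : S, ∃ b : S, b ^ 2 = a) (ι : S →+* ℂ) (c : Gal(S/ℚ))
    (hc : ∀ x, conj (ι x) = ι (c x)) : c ≠ 1 ∧ c ^ 2 = 1 := by
  constructor
  · rintro rfl
    obtain ⟨b, hb⟩ := hsq (-1)
    have h1 : conj (ι b) = ι b := hc b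
    have h2 : (ι b) ^ 2 = -1 := by rw [← map_pow, hb]; simp
    obtain ⟨r, hr⟩ := Complex.conj_eq_iff_real.1 h1
    rw [hr] at h2
    have h3 : (r : ℂ) ^ 2 = ((r ^ 2 : ℝ) : ℂ) := by push_cast; ring
    rw [h3] at h2
    have h4 : (r ^ 2 : ℝ) = -1 := by exact_mod_cast h2
    nlinarith [sq_nonneg r]
  · ext x
    apply ι.injective
    have : ι ((c ^ 2) x) = ι (c (c x)) := by rw [pow_two]; rfl
    rw [this, ← hc, ← hc]
    simp

/-- Lemma 4.2 (quotient amplification).  `A` clopen in `P = Gal(S/ℚ)`, `𝓗` a finite set of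
nontrivial subgroups normalised by `A`, `W₀` a clopen subgroup.  There is a clopen normal
`W ≤ W₀` such that for all `γ` and all `d ∈ ⟨γ⟩W` with `γ ∉ ⟨d⟩W` there is a character
`x ∈ X(W)` fixed by `d`, killed by the norm of `⟨γ⟩`, and outside `∑_{H ∈ 𝓗} X(W)^H`. -/
theorem gen_amplify {ℓ : ℕ} [Fact ℓ.Prime] {S : Type} [Field S] [Algebra ℚ S] [IsGalois ℚ S]
    (hXL : GenXL ℓ S) (hsq : ∀ a : S, ∃ b : S, b ^ 2 = a)
    (A : Subgroup Gal(S/ℚ)) (hA : IsOpen (A : Set Gal(S/ℚ)))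
    (𝓗 : Set (Subgroup Gal(S/ℚ))) (hfin : 𝓗.Finite) (hne : ∀ H ∈ 𝓗, H ≠ ⊥)
    (hnorm : ∀ H ∈ 𝓗, ∀ a ∈ A, ∀ h ∈ H, a * h * a⁻¹ ∈ H)
    (W₀ : Subgroup Gal(S/ℚ)) (hW₀ : IsOpen (W₀ : Set Gal(S/ℚ))) :
    ∃ (W : Subgroup Gal(S/ℚ)) (_ : W.Normal), IsOpen (W : Set Gal(S/ℚ)) ∧ W ≤ W₀ ∧
      ∀ γ d : Gal(S/ℚ), d ∈ Subgroup.zpowers γ ⊔ W → γ ∉ Subgroup.zpowers d ⊔ W →
        ∃ (x : XChar ℓ W) (c : ℕ), 0 < c ∧ XChar.conj W d x = x ∧
          ∑ i ∈ Finset.range c, XChar.conj W (γ ^ i) x = 0 ∧ x ∉ ⨆ H ∈ 𝓗, genXInv ℓ W H := by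
  classical
  -- complex conjugation
  obtain ⟨ι⟩ : Nonempty (S →+* ℂ) := ⟨(IsAlgClosed.lift : S →ₐ[ℚ] ℂ).toRingHom⟩
  obtain ⟨c, hc⟩ := gen_exists_conj ι
  obtain ⟨hc1, hc2⟩ := gen_conj_props hsq ι c hc
  -- nontrivial elements of the `H`
  have hex : ∀ H : Subgroup Gal(S/ℚ), ∃ h : Gal(S/ℚ), H ∈ 𝓗 → h ∈ H ∧ h ≠ 1 := by
    intro H
    by_cases hH : H ∈ 𝓗
    · obtain ⟨a, ha⟩ := (Subgroup.ne_bot_iff_exists_ne_one).1 (hne H hH)
      exact ⟨a, fun _ => ⟨a.2, fun h => ha (Subtype.ext h)⟩⟩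
    · exact ⟨1, fun h => absurd h hH⟩
  choose hel hel_spec using hex
  let bad : Set Gal(S/ℚ) := insert c (hel '' 𝓗)
  have hbadfin : bad.Finite := (hfin.image hel).insert c
  have hbad1 : (1 : Gal(S/ℚ)) ∉ bad := by
    rintro (h | ⟨H, hH, h⟩)
    · exact hc1 h.symm
    · exact (hel_spec H hH).2 h
  let O : Set Gal(S/ℚ) := ((W₀ : Set Gal(S/ℚ)) ∩ A) ∩ badᶜ
  have hO : IsOpen O := (hW₀.inter hA).inter hbadfin.isClosed.isOpen_compl
  have h1O : (1 : Gal(S/ℚ)) ∈ O := ⟨⟨W₀.one_mem, A.one_mem⟩, hbad1⟩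
  obtain ⟨W₁', hW₁'⟩ := ProfiniteGrp.exist_openNormalSubgroup_sub_open_nhds_of_one hO h1O
  let W₁ : Subgroup Gal(S/ℚ) := W₁'.toSubgroup
  have hW₁n : W₁.Normal := W₁'.isNormal'
  have hW₁o : IsOpen (W₁ : Set Gal(S/ℚ)) := W₁'.isOpen'
  have hW₁O : ∀ g ∈ W₁, g ∈ O := fun g hg => hW₁' hg
  have hW₁fi : W₁.FiniteIndex := gen_finiteIndex_of_isOpen W₁ hW₁o
  set n := W₁.index with hn
  have hnpos : 0 < n := Nat.pos_of_ne_zero Subgroup.FiniteIndex.index_ne_zero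
  set r := hfin.toFinset.card with hr
  obtain ⟨m, hm⟩ : ∃ m, 2 * n * (2 * r + 1) < 2 ^ m := ⟨_, Nat.lt_two_pow_self⟩
  obtain ⟨W, hWn, hWo, hWle, hsq2, hcomm⟩ := gen_kummer_amplify hsq W₁ hW₁o m
  refine ⟨W, hWn, hWo, fun g hg => (hW₁O g (hWle hg)).1.1, ?_⟩
  intro γ d hd hγ
  have hWfi : W.FiniteIndex := gen_finiteIndex_of_isOpen W hWo
  set C := Subgroup.zpowers γ ⊔ W with hC
  set D := Subgroup.zpowers d ⊔ W with hD
  have hWC : W ≤ C := le_sup_right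
  have hWD : W ≤ D := le_sup_right
  have hDC : D ≤ C := sup_le (by rw [Subgroup.zpowers_le]; exact hd) hWC
  have hCo : IsOpen (C : Set Gal(S/ℚ)) := Subgroup.isOpen_mono hWC hWo
  have hDo : IsOpen (D : Set Gal(S/ℚ)) := Subgroup.isOpen_mono hWD hWo
  have hγk : γ ^ (2 * n) ∈ W := by
    have h1 : γ ^ n ∈ W₁ := Subgroup.pow_index_mem W₁ γ
    have h2 := hsq2 _ h1
    rwa [← pow_mul, mul_comm] at h2
  have hk : 0 < 2 * n := by omega
  -- the operators and subspaces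
  have hfd : FiniteDimensional ℚ_[ℓ] (XChar ℓ W) := hXL.fin W hWo
  let Sg : XChar ℓ W →ₗ[ℚ_[ℓ]] XChar ℓ W := ∑ i ∈ Finset.range (2 * n), XChar.conj W (γ ^ i)
  have hSg : ∀ v, Sg v = ∑ i ∈ Finset.range (2 * n), XChar.conj W (γ ^ i) v := fun v => by
    simp [Sg, LinearMap.sum_apply]
  let XC := genXInv ℓ W (Subgroup.zpowers γ)
  let XD := genXInv ℓ W (Subgroup.zpowers d)
  have hXCle : XC ≤ XD := by
    intro x hx
    have hx' : x ∈ genXInv ℓ W C := by rw [hC, gen_xinv_sup]; exact hx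
    intro g hg
    exact hx' g (hDC ((le_sup_left : Subgroup.zpowers d ≤ D) hg))
  have hmap : ∀ v ∈ XD, Sg v ∈ XC := by
    intro v _
    rw [hSg]
    exact gen_norm_mem_xinv W γ (2 * n) hγk v
  have hfix : ∀ v ∈ XC, Sg v = ((2 * n : ℕ) : ℚ_[ℓ]) • v := by
    intro v hv
    rw [hSg]
    exact gen_norm_of_mem_xinv W γ (2 * n) v hv
  have hkne : ((2 * n : ℕ) : ℚ_[ℓ]) ≠ 0 := by exact_mod_cast hk.ne'
  -- the dimension count
  have hdimH : ∀ H ∈ hfin.toFinset, finrank ℚ_[ℓ] (genXInv ℓ W H) * 2 ^ m ≤ W.index := by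
    intro H hH
    have hH' : H ∈ 𝓗 := hfin.mem_toFinset.1 hH
    obtain ⟨hhH, hh1⟩ := hel_spec H hH'
    have hhW₁ : hel H ∉ W₁ := fun h => (hW₁O _ h).2 (Or.inr ⟨H, hH', rfl⟩)
    obtain ⟨v, hv, hvinj⟩ := hcomm (hel H) hhW₁
    have h1 := gen_index_sup_mul_le W H m (fun B => hel H * v B * (hel H)⁻¹ * (v B)⁻¹)
      (fun B => by
        have h2 := hnorm H hH' (v B) (hW₁O _ (hv B)).1.2 (hel H)⁻¹ (H.inv_mem hhH)
        have h3 := H.mul_mem hhH h2
        simpa [mul_assoc] using h3) hvinj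
    have h4 : finrank ℚ_[ℓ] (genXInv ℓ W H) ≤ (H ⊔ W).index := by
      rw [gen_finrank_xinv W hWo H]
      exact hXL.dim_le _ (Subgroup.isOpen_mono (le_sup_right : W ≤ H ⊔ W) hWo)
    exact (Nat.mul_le_mul_right _ h4).trans h1
  have hsum : (∑ H ∈ hfin.toFinset, finrank ℚ_[ℓ] (genXInv ℓ W H)) * 2 ^ m ≤ r * W.index := by
    rw [Finset.sum_mul, hr, ← smul_eq_mul, ← Finset.sum_const]
    exact Finset.sum_le_sum hdimH
  have hcW₁ : c ∉ W₁ := fun h => (hW₁O _ h).2 (Or.inl rfl)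
  have hr1 : genR1 D * 2 ^ m ≤ W.index := by
    obtain ⟨v, _, hvinj⟩ := hcomm c hcW₁
    have h1 := gen_card_fixed_mul_le W c d (by rw [hc2]; exact W.one_mem)
      (fun h => hcW₁ (hWle h)) m v hvinj
    exact (Nat.mul_le_mul_right _ (gen_card_real_le D hDo ι c hc)).trans h1
  have hidx : 2 * C.index ≤ D.index := by
    have h1 := Subgroup.relIndex_mul_index hDC
    have hDfi : D.FiniteIndex := gen_finiteIndex_of_isOpen D hDo
    have h2 : D.relIndex C ≠ 0 := by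
      intro h
      rw [h, zero_mul] at h1
      exact Subgroup.FiniteIndex.index_ne_zero h1.symm
    have h3 : D.relIndex C ≠ 1 := by
      intro h
      rw [Subgroup.relIndex_eq_one] at h
      exact hγ (h ((le_sup_left : Subgroup.zpowers γ ≤ C) (Subgroup.mem_zpowers γ)))
    rw [← h1]
    exact Nat.mul_le_mul_right _ (by omega)
  have hdim : ∑ H ∈ hfin.toFinset, finrank ℚ_[ℓ] (genXInv ℓ W H) + finrank ℚ_[ℓ] XC
      < finrank ℚ_[ℓ] XD := by
    have hXC : finrank ℚ_[ℓ] XC = finrank ℚ_[ℓ] (XChar ℓ C) := gen_finrank_xinv W hWo _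
    have hXD : finrank ℚ_[ℓ] XD = finrank ℚ_[ℓ] (XChar ℓ D) := gen_finrank_xinv W hWo _
    rw [hXC, hXD]
    have hC12 := gen_r1_add_two_r2 C hCo
    exact gen_amplify_numeric W.index n r m C.index D.index (genR1 D) (genR2 D) (genR2 C) _ _ _
      (Nat.pos_of_ne_zero Subgroup.FiniteIndex.index_ne_zero) hm hsum
      (hXL.dim_diff D C hDo hDC) (gen_r1_add_two_r2 D hDo) (by omega) hidx
      (gen_index_le_zpowers_sup W γ (2 * n) hk hγk) hr1
  obtain ⟨x, hxD, hx0, hxn⟩ := gen_exists_separating' Sg XC XD _ hkne hXCle hmap hfix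
    hfin.toFinset (fun H => genXInv ℓ W H) hdim
  refine ⟨x, 2 * n, hk, hxD d (Subgroup.mem_zpowers d), ?_, ?_⟩
  · rw [← hSg]; exact hx0
  · simpa using hxn

end Claimed.Agent.R239
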