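/-
Row 239, package GEN: arithmetic leaves of Proposition 4.3.
-/
import Claimed.Agent.R239.GEN.Res

set_option autoImplicit false

namespace Claimed.Agent.R239

open NumberField Module
open scoped Pointwise

/-- evaluation of a finite sum of characters. -/
theorem gen_sum_apply' {ℓ : ℕ} [Fact ℓ.Prime] {H : Type*} [Group H] [TopologicalSpace H]
    {ι : Type*} (s : Finset ι) (f : ι → XChar ℓ H) (h : H) :
    (∑ i ∈ s, f i : XChar ℓ H).1 h = ∑ i ∈ s, (f i).1 h := by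
  let ev : XChar ℓ H →ₗ[ℚ_[ℓ]] ℚ_[ℓ] := (LinearMap.proj h).comp (XChar ℓ H).subtype
  exact map_sum ev f s

/-- (F2) If `∑_{i<c} γ^i x = 0`, `Q ∤ ℓ` and the image of `D_Q` in `P/W` contains `γ`, then `x`
vanishes on `D_Q ∩ W`. -/
theorem gen_vanish_decomp {ℓ : ℕ} [Fact ℓ.Prime] {S : Type} [Field S] [Algebra ℚ S]
    [IsGalois ℚ S] (hXL : GenXL ℓ S) (hH : GenHil S) (W : Subgroup Gal(S/ℚ)) [W.Normal]
    (hW : IsOpen (W : Set Gal(S/ℚ))) (Q : Ideal (𝓞 S)) (hQ : Q.IsMaximal) (hQℓ : ¬ Over Q ℓ)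
    (γ : Gal(S/ℚ)) (hγ : γ ∈ decomp ℚ Q ⊔ W) (x : XChar ℓ W) (c : ℕ) (hc : 0 < c)
    (hsum : ∑ i ∈ Finset.range c, XChar.conj W (γ ^ i) x = 0) (h : W)
    (hh : (h : Gal(S/ℚ)) ∈ decomp ℚ Q) : x.1 h = 0 := by
  have hterm : ∀ i : ℕ, (XChar.conj W (γ ^ i) x).1 h = x.1 h := by
    intro i
    have hi : γ ^ i ∈ decomp ℚ Q ⊔ W := Subgroup.pow_mem _ hγ i
    obtain ⟨g, hg, w, hw, hgw⟩ := Subgroup.mem_sup_of_normal_right.1 hi
    rw [← hgw, gen_conj_mul, gen_conj_of_mem W hw, XChar.conj_apply]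
    have hkI : (h : Gal(S/ℚ))⁻¹ * g⁻¹ * (h : Gal(S/ℚ))⁻¹⁻¹ * g⁻¹⁻¹ ∈ inert ℚ Q :=
      hH.comm Q hQ _ (Subgroup.inv_mem _ hh) _ (Subgroup.inv_mem _ hg)
    have hkW : (h : Gal(S/ℚ))⁻¹ * g⁻¹ * (h : Gal(S/ℚ))⁻¹⁻¹ * g⁻¹⁻¹ ∈ W := by
      have h1 : g⁻¹ * (h : Gal(S/ℚ)) * g⁻¹⁻¹ ∈ W := ‹W.Normal›.conj_mem _ h.2 _
      have h2 := W.mul_mem (W.inv_mem h.2) h1
      simpa [mul_assoc] using h2
    have e : (⟨g⁻¹ * h.1 * g, by simpa using ‹W.Normal›.conj_mem h.1 h.2 g⁻¹⟩ : W)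
        = h * ⟨_, hkW⟩ := by
      ext
      simp [mul_assoc]
    rw [e, XChar.map_mul, hXL.unram W hW x Q hQ hQℓ ⟨_, hkW⟩ hkI, add_zero]
  have h1 := congrArg (fun z : XChar ℓ W => z.1 h) hsum
  simp only [gen_sum_apply', hterm, Finset.sum_const, Finset.card_range] at h1
  have h2 : (c : ℚ_[ℓ]) * x.1 h = 0 := by
    simpa [nsmul_eq_mul] using h1
  have h3 : (c : ℚ_[ℓ]) ≠ 0 := by exact_mod_cast hc.ne'
  exact (mul_eq_zero.1 h2).resolve_left h3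

/-- (F4a) `IsTameGen ℓ U P τ` only depends on `I(P) ∩ U`. -/
theorem gen_tameGen_congr {F E : Type*} [Field F] [Field E] [Algebra F E] {ℓ : ℕ}
    {U V : Subgroup Gal(E/F)} {P : Ideal (𝓞 E)} {τ : Gal(E/F)}
    (h : inert F P ⊓ U = inert F P ⊓ V) (hτ : IsTameGen ℓ U P τ) : IsTameGen ℓ V P τ := by
  obtain ⟨mem, proL, gen⟩ := hτ
  have key : ∀ (I J : Subgroup Gal(E/F)) (e : I = J) (mem : τ ∈ I),
      (∀ c : I →* Multiplicative (ZMod ℓ), Continuous c → c ⟨τ, mem⟩ = 1 → c = 1) →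
      (∀ c : J →* Multiplicative (ZMod ℓ), Continuous c → c ⟨τ, e ▸ mem⟩ = 1 → c = 1) := by
    intro I J e
    subst e
    exact fun _ h => h
  exact ⟨h ▸ mem, proL, key _ _ h mem gen⟩

theorem gen_inert_smul {F E : Type*} [Field F] [Field E] [Algebra F E] {P : Ideal (𝓞 E)}
    {g : Gal(E/F)} (hg : g ∈ inert F P) (u : Gal(E/F)) : u * g * u⁻¹ ∈ inert F (u • P) := by
  intro y
  have h1 := hg (u⁻¹ • y)
  have h2 := Ideal.smul_mem_pointwise_smul u _ P h1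
  have e : u • (g • u⁻¹ • y - u⁻¹ • y) = (u * g * u⁻¹) • y - y := by
    rw [smul_sub, smul_smul, smul_smul, smul_smul, mul_inv_cancel, one_smul]
  rw [e] at h2
  exact h2

theorem gen_decomp_smul {F E : Type*} [Field F] [Field E] [Algebra F E] {P : Ideal (𝓞 E)}
    {g : Gal(E/F)} (hg : g ∈ decomp F P) (u : Gal(E/F)) : u * g * u⁻¹ ∈ decomp F (u • P) := by
  rw [MulAction.mem_stabilizer_iff] at hg ⊢
  rw [mul_smul, mul_smul, inv_smul_smul, hg]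

theorem gen_over_smul {F E : Type*} [Field F] [Field E] [Algebra F E] {P : Ideal (𝓞 E)} {p : ℕ}
    (h : Over P p) (u : Gal(E/F)) : Over (u • P) p := by
  have h1 := Ideal.smul_mem_pointwise_smul u _ P h
  have h2 : u • ((p : ℕ) : 𝓞 E) = ((p : ℕ) : 𝓞 E) := by
    exact map_natCast (MulSemiringAction.toRingHom Gal(E/F) (𝓞 E) u) p
  rw [h2] at h1
  exact h1

theorem gen_isMaximal_smul {F E : Type*} [Field F] [Field E] [Algebra F E] {P : Ideal (𝓞 E)}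
    (h : P.IsMaximal) (u : Gal(E/F)) : (u • P).IsMaximal := by
  have hs : Function.Surjective (MulSemiringAction.toRingHom Gal(E/F) (𝓞 E) u) := by
    intro y
    exact ⟨u⁻¹ • y, by simp⟩
  rcases Ideal.map_eq_top_or_isMaximal_of_surjective _ hs h with h1 | h1
  · exfalso
    have h2 : (1 : 𝓞 E) ∈ u • P := by
      rw [Ideal.pointwise_smul_def, h1]; trivial
    have h3 := Ideal.smul_mem_pointwise_smul u⁻¹ _ _ h2
    rw [inv_smul_smul, smul_one] at h3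
    exact h.ne_top ((Ideal.eq_top_iff_one _).2 h3)
  · exact h1

/-- (F4b) translation of a tame generator by an element of `V`. -/
theorem gen_tameGen_smul {F E : Type*} [Field F] [Field E] [Algebra F E] {ℓ : ℕ}
    {V : Subgroup Gal(E/F)} {P : Ideal (𝓞 E)} {τ u : Gal(E/F)} (hu : u ∈ V)
    (hτ : IsTameGen ℓ V P τ) : IsTameGen ℓ V (u • P) (u * τ * u⁻¹) := by
  obtain ⟨mem, proL, gen⟩ := hτ
  have hconj : ∀ g, g ∈ inert F P ⊓ V → u * g * u⁻¹ ∈ inert F (u • P) ⊓ V := fun g hg =>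
    ⟨gen_inert_smul hg.1 u, V.mul_mem (V.mul_mem hu hg.2) (V.inv_mem hu)⟩
  have hconj' : ∀ g, g ∈ inert F (u • P) ⊓ V → u⁻¹ * g * u ∈ inert F P ⊓ V := by
    intro g hg
    refine ⟨?_, V.mul_mem (V.mul_mem (V.inv_mem hu) hg.2) hu⟩
    have := gen_inert_smul hg.1 u⁻¹
    rwa [inv_smul_smul, inv_inv] at this
  refine ⟨hconj τ mem, ?_, ?_⟩
  · intro V' hV'
    let V'' : Subgroup Gal(E/F) := V'.comap (MulAut.conj u).toMonoidHom
    have hV'' : IsOpen (V'' : Set Gal(E/F)) := by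
      have hc : Continuous (fun g : Gal(E/F) => u * g * u⁻¹) :=
        (continuous_const.mul continuous_id).mul continuous_const
      exact hV'.preimage hc
    obtain ⟨k, hk⟩ := proL V'' hV''
    refine ⟨k, ?_⟩
    have : u * τ ^ ℓ ^ k * u⁻¹ ∈ V' := hk
    rwa [← conj_pow] at this
  · intro c hc hc1
    let c' : ↥(inert F P ⊓ V) →* Multiplicative (ZMod ℓ) :=
      { toFun := fun g => c ⟨u * g.1 * u⁻¹, hconj g.1 g.2⟩
        map_one' := by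
          have : (⟨u * ((1 : ↥(inert F P ⊓ V)) : Gal(E/F)) * u⁻¹, hconj _ (1 : ↥(inert F P ⊓ V)).2⟩ :
              ↥(inert F (u • P) ⊓ V)) = 1 := by
            ext1; simp
          rw [this, map_one]
        map_mul' := fun a b => by
          have : (⟨u * ((a * b : ↥(inert F P ⊓ V)) : Gal(E/F)) * u⁻¹, hconj _ (a * b).2⟩ :
              ↥(inert F (u • P) ⊓ V))
              = ⟨u * a.1 * u⁻¹, hconj a.1 a.2⟩ * ⟨u * b.1 * u⁻¹, hconj b.1 b.2⟩ := by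
            ext1; simp [mul_assoc]
          rw [this, map_mul] }
    have hc' : Continuous c' := by
      apply hc.comp
      apply Continuous.subtype_mk
      exact (continuous_const.mul continuous_subtype_val).mul continuous_const
    have h1 := gen c' hc' hc1
    ext1 g
    have h2 := congrArg (fun f => f ⟨u⁻¹ * g.1 * u, hconj' g.1 g.2⟩) h1
    simp only [MonoidHom.one_apply] at h2 ⊢
    rw [← h2]
    change c g = c ⟨u * (u⁻¹ * g.1 * u) * u⁻¹, _⟩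
    congr 1
    ext1
    simp [mul_assoc]

/-- Prop 3.2 (ii) from Prop 3.2 (i): `V = G_M` normal, `δ ^ a ∈ V`; if `y (σ ^ a) = 0` for Frobenius
lifts `σ ∈ δ V` over infinitely many `p`, then `∑_{i<a} δ^i y = 0`. -/
theorem gen_detect_avg {ℓ : ℕ} [Fact ℓ.Prime] {Ω : Type} [Field Ω] [Algebra ℚ Ω] [IsGalois ℚ Ω]
    (hsrc : GenSrc ℓ Ω) (V : Subgroup Gal(Ω/ℚ)) [V.Normal] (hV : IsOpen (V : Set Gal(Ω/ℚ)))
    (y : XChar ℓ V) (δ : Gal(Ω/ℚ)) (a : ℕ) (ha : 0 < a) (hδ : δ ^ a ∈ V)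
    (hinf : {p : ℕ | p.Prime ∧ p ≠ ℓ ∧ ∃ P : Ideal (𝓞 Ω), P.IsMaximal ∧ Over P p ∧
      ∃ σ : Gal(Ω/ℚ), IsFrob ⊤ P σ ∧ δ⁻¹ * σ ∈ V ∧ ∃ h : σ ^ a ∈ V, y.1 ⟨σ ^ a, h⟩ = 0}.Infinite) :
    ∑ i ∈ Finset.range a, XChar.conj V (δ ^ i) y = 0 := by
  have hfi : V.FiniteIndex := gen_finiteIndex_of_isOpen V hV
  set Y := ∑ i ∈ Finset.range a, XChar.conj V (δ ^ i) y with hY
  set VC := Subgroup.zpowers δ ⊔ V with hVC
  have hle : V ≤ VC := le_sup_right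
  have hYinv : Y ∈ genXInv ℓ V VC := by
    rw [hVC, gen_xinv_sup]
    exact gen_norm_mem_xinv V δ a hδ y
  obtain ⟨z, hz⟩ := gen_res_surj V VC hV hle Y hYinv
  have hVCo : IsOpen (VC : Set Gal(Ω/ℚ)) := Subgroup.isOpen_mono hle hV
  have hz0 : z = 0 := by
    apply hsrc.detect_one VC hVCo z
    refine hinf.mono ?_
    rintro p ⟨hp, hpℓ, P, hP, hPp, σ, hσ, hσδ, hσa, hyσ⟩
    have hσVC : σ ∈ VC := by
      have h1 : δ ∈ VC := (le_sup_left : Subgroup.zpowers δ ≤ VC) (Subgroup.mem_zpowers δ)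
      have h2 := VC.mul_mem h1 (hle hσδ)
      simpa using h2
    refine ⟨hp, hpℓ, P, hP, hPp, ⟨σ, hσVC⟩, hσ, ?_⟩
    -- `a z(σ) = Y(σ^a) = a y(σ^a) = 0`
    have h1 : (XChar.res hle z).1 ⟨σ ^ a, hσa⟩ = a * z.1 ⟨σ, hσVC⟩ := by
      rw [XChar.res_apply]
      have : (⟨σ ^ a, hle hσa⟩ : VC) = ⟨σ, hσVC⟩ ^ a := by ext; simp
      rw [this, XChar.map_pow]
    have hterm : ∀ i : ℕ, (XChar.conj V (δ ^ i) y).1 ⟨σ ^ a, hσa⟩ = 0 := by
      intro i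
      have hi : (σ ^ i)⁻¹ * δ ^ i ∈ V := by
        have e1 : (QuotientGroup.mk σ : Gal(Ω/ℚ) ⧸ V) = QuotientGroup.mk δ := by
          symm
          exact QuotientGroup.eq.2 hσδ
        apply QuotientGroup.eq.1
        rw [QuotientGroup.mk_pow, QuotientGroup.mk_pow, e1]
      rw [gen_conj_congr V hi, XChar.conj_apply]
      have : (⟨(σ ^ i)⁻¹ * σ ^ a * σ ^ i, by
          simpa using ‹V.Normal›.conj_mem _ hσa (σ ^ i)⁻¹⟩ : V) = ⟨σ ^ a, hσa⟩ := by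
        ext1
        simp only
        rw [mul_assoc, ← pow_add, add_comm, pow_add]
        group
      rw [this, hyσ]
    rw [hz, hY, gen_sum_apply'] at h1
    simp only [hterm, Finset.sum_const_zero] at h1
    have h3 : (a : ℚ_[ℓ]) ≠ 0 := by exact_mod_cast ha.ne'
    exact (mul_eq_zero.1 h1.symm).resolve_left h3
  rw [← hz, hz0, map_zero]

end Claimed.Agent.R239
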