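/-
Row 239, package GEN: infinitely many source characteristics (first part of Proposition 4.3).
-/
import Claimed.Agent.R239.GEN.FrobB

set_option autoImplicit false

namespace Claimed.Agent.R239

open NumberField Module
open scoped Pointwise

/-- everything GEN consumes, for one auxiliary prime `ℓ`. -/
structure GenAll (ℓ : ℕ) [Fact ℓ.Prime] (Ω S : Type) [Field Ω] [Algebra ℚ Ω] [Field S]
    [Algebra ℚ S] : Prop where
  xl : GenXL ℓ S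
  hilΩ : GenHil Ω
  hilS : GenHil S
  src : GenSrc ℓ Ω
  tgt : GenTgt ℓ S
  lc : GenLC ℓ Ω S

theorem gen_inert_le_decomp {F E : Type*} [Field F] [Field E] [Algebra F E] (P : Ideal (𝓞 E)) :
    inert F P ≤ decomp F P := by
  intro g hg
  rw [MulAction.mem_stabilizer_iff]
  have key : ∀ g : Gal(E/F), g ∈ inert F P → ∀ y ∈ P, g • y ∈ P := by
    intro g hg y hy
    have := P.add_mem (hg y) hy
    simpa using this
  apply le_antisymm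
  · rw [Ideal.pointwise_smul_def, Ideal.map_le_iff_le_comap]
    intro y hy
    exact key g hg y hy
  · intro y hy
    have h1 := key g⁻¹ (Subgroup.inv_mem _ hg) y hy
    have h2 := Ideal.smul_mem_pointwise_smul g _ P h1
    rwa [smul_inv_smul] at h2

theorem gen_over_unique {E : Type*} [Field E] {P : Ideal (𝓞 E)} (hP : P ≠ ⊤) {p q : ℕ}
    (hp : p.Prime) (hq : q.Prime) (h : Over P p) (h' : Over P q) : p = q := by
  by_contra hne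
  have hc : Nat.Coprime p q := (Nat.coprime_primes hp hq).2 hne
  obtain ⟨a, b, hab⟩ := (Nat.isCoprime_iff_coprime.2 hc)
  apply hP
  rw [Ideal.eq_top_iff_one]
  have h1 : ((a : 𝓞 E)) * (p : 𝓞 E) + (b : 𝓞 E) * (q : 𝓞 E) = 1 := by
    have := congrArg (fun z : ℤ => (z : 𝓞 E)) hab
    push_cast at this
    exact this
  rw [← h1]
  exact P.add_mem (P.mul_mem_left _ h) (P.mul_mem_left _ h')

section

variable {ℓ : ℕ} [Fact ℓ.Prime] {Ω S : Type} [Field Ω] [Algebra ℚ Ω]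
    [IsGalois ℚ Ω] [Field S] [Algebra ℚ S] [IsGalois ℚ S]

/-- moving a target prime by an element of the normal subgroup `W` changes neither `I ≤ W` nor
`D W`. -/
theorem gen_move_target (W : Subgroup Gal(S/ℚ)) [W.Normal] (Q : Ideal (𝓞 S)) {w : Gal(S/ℚ)}
    (hw : w ∈ W) :
    (inert ℚ Q ≤ W → inert ℚ (w • Q) ≤ W) ∧ decomp ℚ (w • Q) ⊔ W = decomp ℚ Q ⊔ W := by
  constructor
  · intro h g hg
    have h1 := gen_inert_smul hg w⁻¹
    rw [inv_smul_smul, inv_inv] at h1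
    have h2 := ‹W.Normal›.conj_mem _ (h h1) w
    simpa [mul_assoc] using h2
  · apply le_antisymm
    · refine sup_le ?_ le_sup_right
      intro g hg
      have h1 := gen_decomp_smul hg w⁻¹
      rw [inv_smul_smul, inv_inv] at h1
      have hW : W ≤ decomp ℚ Q ⊔ W := le_sup_right
      have hD : decomp ℚ Q ≤ decomp ℚ Q ⊔ W := le_sup_left
      have h2 := Subgroup.mul_mem _ (Subgroup.mul_mem _ (hW hw) (hD h1)) (hW (W.inv_mem hw))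
      simpa [mul_assoc] using h2
    · refine sup_le ?_ le_sup_right
      intro g hg
      have h1 := gen_decomp_smul hg w
      have hW : W ≤ decomp ℚ (w • Q) ⊔ W := le_sup_right
      have hD : decomp ℚ (w • Q) ≤ decomp ℚ (w • Q) ⊔ W := le_sup_left
      have h2 := Subgroup.mul_mem _ (Subgroup.mul_mem _ (hW (W.inv_mem hw)) (hD h1)) (hW hw)
      simpa [mul_assoc] using h2

/-- two active pairs whose source primes are conjugate under `V` have target primes over the same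
rational prime. -/
theorem gen_no_collision (hall : GenAll ℓ Ω S)
    (V : Subgroup Gal(Ω/ℚ)) (hV : IsOpen (V : Set Gal(Ω/ℚ))) (φ : V →* Gal(S/ℚ))
    (hφ : Continuous φ) (P : Ideal (𝓞 Ω)) (hP : P.IsMaximal) (hPℓ : ¬ Over P ℓ)
    (τ τ' : V) (u : V)
    (hτ : IsTameGen ℓ V P (τ : Gal(Ω/ℚ))) (hτ' : IsTameGen ℓ V ((u : Gal(Ω/ℚ)) • P) (τ' : Gal(Ω/ℚ)))
    (hact' : φ τ' ≠ 1) (Q Q' : Ideal (𝓞 S)) (hQ : Q.IsMaximal) (hQ' : Q'.IsMaximal)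
    (hτQ : φ τ ∈ inert ℚ Q) (hτQ' : φ τ' ∈ inert ℚ Q') {q q' : ℕ} (hq : q.Prime) (hq' : q'.Prime)
    (hQq : Over Q q) (hQq' : Over Q' q') : q = q' := by
  have hP' : ((u : Gal(Ω/ℚ)) • P).IsMaximal := gen_isMaximal_smul hP _
  have hPℓ' : ¬ Over ((u : Gal(Ω/ℚ)) • P) ℓ := by
    intro h
    have := gen_over_smul h (u : Gal(Ω/ℚ))⁻¹
    rw [inv_smul_smul] at this
    exact hPℓ this
  have h1 := gen_tameGen_smul u.2 hτ
  obtain ⟨i, hi, hcl⟩ := hall.src.tame_conj V hV _ _ _ hP' hPℓ' h1 hτ'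
  let iu : V := ⟨i, hi.2⟩ * u
  let b : Gal(S/ℚ) := φ iu
  have hbQ : (b • Q).IsMaximal := gen_isMaximal_smul hQ b
  -- the closed subgroup of `V` mapped into `D_{bQ}`
  let Z : Set V := {v | φ v ∈ decomp ℚ (b • Q)}
  have hZcl : IsClosed Z := (hall.hilS.closed _ hbQ).preimage hφ
  have hVcl : IsClosed (V : Set Gal(Ω/ℚ)) := V.isClosed_of_isOpen hV
  have hZ' : IsClosed (Subtype.val '' Z : Set Gal(Ω/ℚ)) :=
    hVcl.isClosedEmbedding_subtypeVal.isClosedMap _ hZcl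
  have hgen : iu * τ * iu⁻¹ ∈ Z := by
    change φ (iu * τ * iu⁻¹) ∈ decomp ℚ (b • Q)
    rw [map_mul, map_mul, map_inv]
    exact gen_inert_le_decomp _ (gen_inert_smul hτQ b)
  have hsub : (Subgroup.zpowers (i * ((u : Gal(Ω/ℚ)) * τ * (u : Gal(Ω/ℚ))⁻¹) * i⁻¹) : Set Gal(Ω/ℚ))
      ⊆ Subtype.val '' Z := by
    rintro _ ⟨k, rfl⟩
    refine ⟨(iu * τ * iu⁻¹) ^ k, ?_, ?_⟩
    · change φ ((iu * τ * iu⁻¹) ^ k) ∈ decomp ℚ (b • Q)
      rw [map_zpow]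
      exact Subgroup.zpow_mem _ hgen k
    · simp [iu, mul_assoc]
  obtain ⟨v, hvZ, hv⟩ := (closure_minimal hsub hZ') hcl
  have hv' : v = τ' := Subtype.ext hv
  rw [hv'] at hvZ
  have heq : b • Q = Q' :=
    hall.tgt.inter _ _ hbQ hQ' (φ τ') hvZ (gen_inert_le_decomp _ hτQ') hact'
  have h2 : Over Q' q := heq ▸ gen_over_smul hQq b
  exact gen_over_unique hQ'.ne_top hq hq' h2 hQq'

/-- (F3) infinitely many SOURCE residue characteristics occur among the active primes matched with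
target primes whose decomposition group mod `W` is `⟨γ⟩`. -/
theorem gen_source_primes_infinite (hall : GenAll ℓ Ω S)
    (V : Subgroup Gal(Ω/ℚ)) (hV : IsOpen (V : Set Gal(Ω/ℚ))) (φ : V →* Gal(S/ℚ))
    (hφ : Continuous φ) (hφo : IsOpen (Set.range φ)) (W : Subgroup Gal(S/ℚ)) [W.Normal]
    (hW : IsOpen (W : Set Gal(S/ℚ))) (hφW : ∀ g, φ g ∈ W) (γ : Gal(S/ℚ)) :
    {p : ℕ | p.Prime ∧ p ≠ ℓ ∧ ∃ (P : Ideal (𝓞 Ω)) (τ : V) (Q : Ideal (𝓞 S)),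
      P.IsMaximal ∧ Over P p ∧ IsTameGen ℓ V P (τ : Gal(Ω/ℚ)) ∧ φ τ ≠ 1 ∧
      Q.IsMaximal ∧ ¬ Over Q ℓ ∧ φ τ ∈ inert ℚ Q ∧ inert ℚ Q ≤ W ∧
      decomp ℚ Q ⊔ W = Subgroup.zpowers γ ⊔ W}.Infinite := by
  classical
  have hℓ : ℓ.Prime := Fact.out
  obtain ⟨B, hB⟩ := hall.lc.cover V hV φ hφ hφo W hφW
  set 𝒬₀ := {q : ℕ | q.Prime ∧ ∃ Q : Ideal (𝓞 S), Q.IsMaximal ∧ Over Q q ∧ inert ℚ Q ≤ W ∧
      decomp ℚ Q ⊔ W = Subgroup.zpowers γ ⊔ W} with h𝒬₀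
  have h𝒬₀inf : 𝒬₀.Infinite := hall.tgt.spl W hW γ
  set 𝒬 := 𝒬₀ \ (↑(insert ℓ B) : Set ℕ) with h𝒬
  have h𝒬inf : 𝒬.Infinite := h𝒬₀inf.sdiff (Finset.finite_toSet _)
  -- data attached to `q`
  have hdata : ∀ q : ℕ, ∃ (p : ℕ) (P : Ideal (𝓞 Ω)) (τ : V) (Q : Ideal (𝓞 S)), q ∈ 𝒬 →
      p.Prime ∧ p ≠ ℓ ∧ P.IsMaximal ∧ Over P p ∧ IsTameGen ℓ V P (τ : Gal(Ω/ℚ)) ∧ φ τ ≠ 1 ∧
      Q.IsMaximal ∧ ¬ Over Q ℓ ∧ φ τ ∈ inert ℚ Q ∧ inert ℚ Q ≤ W ∧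
      decomp ℚ Q ⊔ W = Subgroup.zpowers γ ⊔ W ∧ Over Q q ∧ ¬ Over P ℓ := by
    intro q
    by_cases hq : q ∈ 𝒬
    · obtain ⟨⟨hqp, Q₀, hQ₀, hQ₀q, hI, hD⟩, hqB⟩ := hq
      have hqB' : q ∉ B := fun h => hqB (by simp [h])
      have hqℓ : q ≠ ℓ := fun h => hqB (by simp [h])
      obtain ⟨w, hw, P, τ, hP, hPℓ, hτ, hact, hτQ⟩ := hB q Q₀ hqp hqB' hQ₀ hQ₀q
      obtain ⟨p, hp, hPp⟩ := hall.hilΩ.resChar P hP
      have hmv := gen_move_target W Q₀ hw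
      have hQmax : (w • Q₀).IsMaximal := gen_isMaximal_smul hQ₀ w
      have hQq : Over (w • Q₀) q := gen_over_smul hQ₀q w
      refine ⟨p, P, τ, w • Q₀, fun _ => ⟨hp, ?_, hP, hPp, hτ, hact, hQmax, ?_, hτQ, hmv.1 hI,
        hmv.2.trans hD, hQq, hPℓ⟩⟩
      · rintro rfl
        exact hPℓ hPp
      · intro h
        exact hqℓ (gen_over_unique hQmax.ne_top hqp hℓ hQq h)
    · exact ⟨0, ⊥, 1, ⊥, fun h => absurd h hq⟩
  choose pf Pf τf Qf hspec using hdata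
  -- base primes
  have hbase : ∀ q : ℕ, ∃ g : Gal(Ω/ℚ), q ∈ 𝒬 →
      g • (Pf (Classical.epsilon (fun q' => q' ∈ 𝒬 ∧ pf q' = pf q))) = Pf q := by
    intro q
    by_cases hq : q ∈ 𝒬
    · have hex : ∃ q', q' ∈ 𝒬 ∧ pf q' = pf q := ⟨q, hq, rfl⟩
      obtain ⟨h1, h2⟩ := Classical.epsilon_spec hex
      set q₀ := Classical.epsilon (fun q' => q' ∈ 𝒬 ∧ pf q' = pf q)
      have s0 := hspec q₀ h1
      have s1 := hspec q hq
      obtain ⟨g, hg⟩ := hall.hilΩ.trans (pf q) (Pf q₀) (Pf q) s1.1 s0.2.2.1 s1.2.2.1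
        (h2 ▸ s0.2.2.2.1) s1.2.2.2.1
      exact ⟨g, fun _ => hg⟩
    · exact ⟨1, fun h => absurd h hq⟩
  choose gf hgf using hbase
  intro hfin
  have hfiV : Finite (Gal(Ω/ℚ) ⧸ V) := Subgroup.quotient_finite_of_isOpen V hV
  let Φ : ℕ → ℕ × (Gal(Ω/ℚ) ⧸ V) := fun q => (pf q, QuotientGroup.mk (gf q)⁻¹)
  have hmaps : Set.MapsTo Φ 𝒬
      ((↑hfin.toFinset : Set ℕ) ×ˢ (Set.univ : Set (Gal(Ω/ℚ) ⧸ V))) := by
    intro q hq
    refine ⟨?_, Set.mem_univ _⟩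
    have s := hspec q hq
    rw [Finset.mem_coe, hfin.mem_toFinset]
    exact ⟨s.1, s.2.1, Pf q, τf q, Qf q, s.2.2.1, s.2.2.2.1, s.2.2.2.2.1, s.2.2.2.2.2.1,
      s.2.2.2.2.2.2.1, s.2.2.2.2.2.2.2.1, s.2.2.2.2.2.2.2.2.1, s.2.2.2.2.2.2.2.2.2.1,
      s.2.2.2.2.2.2.2.2.2.2.1⟩
  obtain ⟨q, hq, q', hq', hne, hΦ⟩ :=
    h𝒬inf.exists_ne_map_eq_of_mapsTo hmaps ((Finset.finite_toSet _).prod Set.finite_univ)
  have hp : pf q = pf q' := congrArg Prod.fst hΦ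
  have hcos : (QuotientGroup.mk (gf q)⁻¹ : Gal(Ω/ℚ) ⧸ V) = QuotientGroup.mk (gf q')⁻¹ :=
    congrArg Prod.snd hΦ
  have hu : gf q * (gf q')⁻¹ ∈ V := by
    have := QuotientGroup.eq.1 hcos
    simpa using this
  let u : V := ⟨gf q' * (gf q)⁻¹, by
    have := V.inv_mem hu
    simpa using this⟩
  have hPP : (u : Gal(Ω/ℚ)) • Pf q = Pf q' := by
    have e1 := hgf q hq
    have e2 := hgf q' hq'
    rw [← hp] at e2
    rw [← e1, ← e2, smul_smul]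
    congr 1
    simp [u, mul_assoc]
  have s := hspec q hq
  have s' := hspec q' hq'
  apply hne
  refine gen_no_collision hall V hV φ hφ (Pf q) s.2.2.1 s.2.2.2.2.2.2.2.2.2.2.2.2 (τf q) (τf q') u
    s.2.2.2.2.1 (hPP ▸ s'.2.2.2.2.1) s'.2.2.2.2.2.1 (Qf q) (Qf q') s.2.2.2.2.2.2.1
    s'.2.2.2.2.2.2.1 s.2.2.2.2.2.2.2.2.1 s'.2.2.2.2.2.2.2.2.1 hq.1.1 hq'.1.1
    s.2.2.2.2.2.2.2.2.2.2.2.1 s'.2.2.2.2.2.2.2.2.2.2.2.1

end

end Claimed.Agent.R239
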