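/-
Row 239, package GEN: abstract leaves of Proposition 4.3 (no arithmetic).
-/
import Claimed.Agent.R239.GenRep

set_option autoImplicit false

namespace Claimed.Agent.R239

open Finset Module

/-- (F1) a continuous homomorphism with open image between compact groups maps open subgroups to
open subgroups. -/
theorem gen_isOpen_map {T P : Type*} [Group T] [TopologicalSpace T] [IsTopologicalGroup T]
    [CompactSpace T] [Group P] [TopologicalSpace P] [IsTopologicalGroup P] [T2Space P]
    [CompactSpace P]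
    (φ : T →* P) (hφ : Continuous φ) (ho : IsOpen (Set.range φ)) (V : Subgroup T)
    (hV : IsOpen (V : Set T)) : IsOpen ((V.map φ : Subgroup P) : Set P) := by
  have hVc : IsClosed (V : Set T) := V.isClosed_of_isOpen hV
  have hcl : IsClosed ((V.map φ : Subgroup P) : Set P) := by
    rw [Subgroup.coe_map]
    exact (hVc.isCompact.image hφ).isClosed
  have h1 : Finite (T ⧸ V) := Subgroup.quotient_finite_of_isOpen V hV
  have h1' : V.FiniteIndex := Subgroup.finiteIndex_of_finite_quotient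
  have ho' : IsOpen (φ.range : Set P) := by rw [MonoidHom.coe_range]; exact ho
  have h2 : Finite (P ⧸ φ.range) := Subgroup.quotient_finite_of_isOpen _ ho'
  have h2' : φ.range.FiniteIndex := Subgroup.finiteIndex_of_finite_quotient
  have h3 : (V.map φ).FiniteIndex := by
    constructor
    rw [Subgroup.index_map]
    have h4 : (V ⊔ φ.ker).FiniteIndex := Subgroup.finiteIndex_of_le (le_sup_left : V ≤ V ⊔ φ.ker)
    exact mul_ne_zero h4.index_ne_zero h2'.index_ne_zero
  exact Subgroup.isOpen_of_isClosed_of_finiteIndex _ hcl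

/-- (F5) the averaging argument of Prop 4.3 for groups acting through a finite quotient
(`gen_average_mem` with `Q` infinite, `U'` normal of finite index acting trivially). -/
theorem gen_average_mem' {k : Type*} [Field k] [CharZero k] {Q X Y : Type*} [Group Q]
    [AddCommGroup X] [Module k X] [AddCommGroup Y] [Module k Y]
    (ρY : Representation k Q Y) (H U U' N : Subgroup Q) [U'.Normal] [U'.FiniteIndex]
    (hUH : U ≤ H) (hY : ∀ u ∈ U', ρY u = 1)
    (ρX : Representation k H X) (hX : ∀ u : H, (u : Q) ∈ U' → ρX u = 1)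
    (j : X →ₗ[k] Y) (hj : Function.Injective j)
    (hequiv : ∀ (h : H) (x : X), ρY (h : Q) (j x) = j (ρX h x))
    (hNU : ∀ t : Q, ∀ n ∈ N, t * n * t⁻¹ ∈ U)
    (hNtriv : ∀ n ∈ N, ∀ (h : n ∈ H) (x : X), ρX ⟨n, h⟩ x = x)
    (δ : Q) (a : ℕ) (ha : 0 < a) (x : X)
    (hx : ∀ (i : ℕ) (h : δ ^ i ∈ H), ρX ⟨δ ^ i, h⟩ x = x)
    (hsum : ∑ i ∈ Finset.range a, ρY (δ ^ i) (j x) = 0) :
    x ∈ ⨆ t : {t : Q // t ∉ H}, genFixConj H ρX N (t : Q) := by
  classical
  obtain ⟨r, hr⟩ := LinearMap.exists_leftInverse_of_injective j (LinearMap.ker_eq_bot.2 hj)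
  have hr' : ∀ z, r (j z) = z := fun z => by
    have := congrArg (fun f => f z) hr
    simpa using this
  let inc : U →* H := Subgroup.inclusion hUH
  let K : Subgroup U := U'.subgroupOf U
  let _ : Fintype (U ⧸ K) := K.fintypeQuotientOfFiniteIndex
  let F : U → (Y →ₗ[k] X) := fun u => (ρX (inc u)⁻¹).comp (r.comp (ρY (u : Q)))
  have hF : ∀ u u' : U, u⁻¹ * u' ∈ K → F u = F u' := by
    intro u u' h
    have hk : ((u⁻¹ * u' : U) : Q) ∈ U' := h
    have e : u' = u * (u⁻¹ * u') := by group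
    have h1 : ρY (u' : Q) = ρY (u : Q) := by
      conv_lhs => rw [e]
      rw [Subgroup.coe_mul, map_mul, hY _ hk, mul_one]
    have h2 : ρX (inc u')⁻¹ = ρX (inc u)⁻¹ := by
      conv_lhs => rw [e]
      rw [map_mul, mul_inv_rev, map_mul]
      have h3 : ρX (inc (u⁻¹ * u'))⁻¹ = 1 := by
        apply hX
        exact U'.inv_mem hk
      rw [h3, one_mul]
    simp only [F, h1, h2]
  let Fq : U ⧸ K → (Y →ₗ[k] X) := fun q => Quotient.liftOn' q F (fun u u' h =>
    hF u u' (QuotientGroup.leftRel_apply.1 h))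
  have hFq : ∀ u : U, Fq (QuotientGroup.mk u) = F u := fun u => rfl
  let π0 : Y →ₗ[k] X := ∑ q : U ⧸ K, Fq q
  have hπ0 : ∀ y, π0 y = ∑ q : U ⧸ K, Fq q y := fun y => by
    simp [π0, LinearMap.sum_apply]
  have hcU : (Fintype.card (U ⧸ K) : k) ≠ 0 := by
    exact_mod_cast Fintype.card_ne_zero
  have hπj : ∀ z, π0 (j z) = (Fintype.card (U ⧸ K) : k) • z := by
    intro z
    rw [hπ0]
    have : ∀ q : U ⧸ K, Fq q (j z) = z := by
      intro q
      induction q using QuotientGroup.induction_on with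
      | H u =>
        rw [hFq]
        simp only [F, LinearMap.comp_apply]
        have h1 : ρY (u : Q) (j z) = j (ρX (inc u) z) := hequiv (inc u) z
        rw [h1, hr', ← Module.End.mul_apply, ← map_mul]
        simp
    rw [Finset.sum_congr rfl (fun u _ => this u)]
    simp [Nat.cast_smul_eq_nsmul]
  have hπeq : ∀ (u0 : U) (y : Y), π0 (ρY (u0 : Q) y) = ρX (inc u0) (π0 y) := by
    intro u0 y
    rw [hπ0, hπ0, map_sum]
    refine Fintype.sum_equiv (Equiv.mulRight (QuotientGroup.mk u0 : U ⧸ K)) _ _ ?_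
    intro q
    induction q using QuotientGroup.induction_on with
    | H u =>
      have e0 : (Equiv.mulRight (QuotientGroup.mk u0 : U ⧸ K)) (QuotientGroup.mk u)
          = QuotientGroup.mk (u * u0) := rfl
      rw [e0, hFq, hFq]
      simp only [F, LinearMap.comp_apply]
      have h1 : ρY (u : Q) (ρY (u0 : Q) y) = ρY (((u * u0 : U)) : Q) y := by
        rw [← Module.End.mul_apply, ← map_mul]; rfl
      have h2 : (inc u)⁻¹ = inc u0 * (inc (u * u0))⁻¹ := by
        rw [map_mul]; group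
      rw [h1, h2, map_mul, Module.End.mul_apply]
  -- the translates outside `H`
  have hN1 : ∀ n ∈ N, n ∈ U := fun n hn => by simpa using hNU 1 n hn
  have hfix : ∀ i : ℕ, π0 (ρY (δ ^ i) (j x)) ∈ genFixConj H ρX N (δ ^ i) := by
    intro i n hn h
    have hu : δ ^ i * n * (δ ^ i)⁻¹ ∈ U := hNU _ n hn
    have h1 : ρX ⟨_, h⟩ (π0 (ρY (δ ^ i) (j x)))
        = π0 (ρY (δ ^ i * n * (δ ^ i)⁻¹) (ρY (δ ^ i) (j x))) := (hπeq ⟨_, hu⟩ _).symm
    rw [h1]
    congr 1
    rw [← Module.End.mul_apply, ← map_mul]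
    have h2 : δ ^ i * n * (δ ^ i)⁻¹ * δ ^ i = δ ^ i * n := by group
    rw [h2, map_mul, Module.End.mul_apply]
    congr 1
    have h3 := hequiv ⟨n, hUH (hN1 n hn)⟩ x
    rw [hNtriv n hn] at h3
    exact h3
  set S : Submodule k X := ⨆ t : {t : Q // t ∉ H}, genFixConj H ρX N (t : Q) with hS
  have hsplit := congrArg π0 hsum
  rw [map_sum, map_zero, ← Finset.sum_filter_add_sum_filter_not _ (fun i => δ ^ i ∈ H)] at hsplit
  have hin : ∀ i ∈ (range a).filter (fun i => δ ^ i ∈ H),
      π0 (ρY (δ ^ i) (j x)) = (Fintype.card (U ⧸ K) : k) • x := by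
    intro i hi
    have hi' := (Finset.mem_filter.1 hi).2
    have := hequiv ⟨δ ^ i, hi'⟩ x
    rw [hx i hi'] at this
    simp only at this
    rw [this, hπj]
  rw [Finset.sum_congr rfl hin, Finset.sum_const] at hsplit
  set c := ((range a).filter (fun i => δ ^ i ∈ H)).card with hc
  have hcpos : 0 < c := by
    apply Finset.card_pos.2
    refine ⟨0, Finset.mem_filter.2 ⟨Finset.mem_range.2 ha, by simp⟩⟩
  have hout : ∑ i ∈ (range a).filter (fun i => ¬ δ ^ i ∈ H), π0 (ρY (δ ^ i) (j x)) ∈ S := by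
    apply Submodule.sum_mem
    intro i hi
    have hi' := (Finset.mem_filter.1 hi).2
    exact Submodule.mem_iSup_of_mem (⟨δ ^ i, hi'⟩ : {t : Q // t ∉ H}) (hfix i)
  have hmem : c • ((Fintype.card (U ⧸ K) : k) • x) ∈ S := by
    have : c • ((Fintype.card (U ⧸ K) : k) • x)
        = - ∑ i ∈ (range a).filter (fun i => ¬ δ ^ i ∈ H), π0 (ρY (δ ^ i) (j x)) :=
      eq_neg_of_add_eq_zero_left hsplit
    rw [this]
    exact S.neg_mem hout
  have hck : (c : k) ≠ 0 := by exact_mod_cast hcpos.ne'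
  rw [← Nat.cast_smul_eq_nsmul k, smul_smul] at hmem
  have := S.smul_mem ((c : k) * (Fintype.card (U ⧸ K) : k))⁻¹ hmem
  rwa [smul_smul, inv_mul_cancel₀ (mul_ne_zero hck hcU), one_smul] at this

end Claimed.Agent.R239
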