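/-
Row 239, package GEN: abstract (topological) group theory of Section 4.  Mathlib only.  No sorry.
* `gen_mem_normalizer_of_conj_le` : the argument "each `H_i` is nontrivial".
* `gen_normalizer_ext` : Lemma 4.1 (extension to the normaliser of the kernel).
-/
import Mathlib

set_option autoImplicit false

namespace Claimed.Agent.R239

theorem gen_mem_normalizer_of_conj_le {G : Type*} [Group G] (N : Subgroup G) (t : G) (k : ℕ)
    (hk : 0 < k) (htk : t ^ k ∈ Subgroup.normalizer (N : Set G)) (h : ∀ n ∈ N, t * n * t⁻¹ ∈ N) :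
    t ∈ Subgroup.normalizer (N : Set G) := by
  have hpow : ∀ j : ℕ, ∀ n ∈ N, t ^ j * n * (t ^ j)⁻¹ ∈ N := by
    intro j
    induction j with
    | zero => intro n hn; simpa using hn
    | succ j ih =>
      intro n hn
      have := h _ (ih n hn)
      have e : t ^ (j + 1) * n * (t ^ (j + 1))⁻¹ = t * (t ^ j * n * (t ^ j)⁻¹) * t⁻¹ := by
        rw [pow_succ']; group
      rw [e]; exact this
  rw [Subgroup.mem_normalizer_iff]
  intro n
  refine ⟨h n, fun hn => ?_⟩
  obtain ⟨j, rfl⟩ : ∃ j, k = j + 1 := ⟨k - 1, by omega⟩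
  have h1 := hpow j _ hn
  have e : t ^ j * (t * n * t⁻¹) * (t ^ j)⁻¹ = t ^ (j + 1) * n * (t ^ (j + 1))⁻¹ := by
    rw [pow_succ]; group
  rw [e] at h1
  exact ((Subgroup.mem_normalizer_iff.1 htk) n).2 h1

/-- `N = ker α` as a subgroup of `G`. -/
abbrev genN {G P : Type*} [Group G] [Group P] (U : Subgroup G) (α : U →* P) : Subgroup G :=
  α.ker.map U.subtype

/-- `T` = the normaliser of `N = ker α` in `G`. -/
abbrev genT {G P : Type*} [Group G] [Group P] (U : Subgroup G) (α : U →* P) : Subgroup G :=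
  Subgroup.normalizer (genN U α : Set G)

theorem gen_mem_N {G P : Type*} [Group G] [Group P] (U : Subgroup G) (α : U →* P) (g : G) :
    g ∈ genN U α ↔ ∃ h : g ∈ U, α ⟨g, h⟩ = 1 := by
  constructor
  · rintro ⟨u, hu, rfl⟩
    exact ⟨u.2, hu⟩
  · rintro ⟨h, hg⟩
    exact ⟨⟨g, h⟩, hg, rfl⟩

theorem gen_U_le_T {G P : Type*} [Group G] [Group P] (U : Subgroup G) (α : U →* P) :
    U ≤ genT U α := by
  intro u hu
  rw [Subgroup.mem_normalizer_iff]
  intro n
  rw [gen_mem_N, gen_mem_N]
  constructor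
  · rintro ⟨h, hn⟩
    refine ⟨U.mul_mem (U.mul_mem hu h) (U.inv_mem hu), ?_⟩
    have : (⟨u * n * u⁻¹, U.mul_mem (U.mul_mem hu h) (U.inv_mem hu)⟩ : U)
        = ⟨u, hu⟩ * ⟨n, h⟩ * ⟨u, hu⟩⁻¹ := rfl
    rw [this, map_mul, map_mul, hn, map_inv]
    simp
  · rintro ⟨h, hn⟩
    have hnU : n ∈ U := by
      have := U.mul_mem (U.mul_mem (U.inv_mem hu) h) hu
      simpa [mul_assoc] using this
    refine ⟨hnU, ?_⟩
    have : (⟨u * n * u⁻¹, h⟩ : U) = ⟨u, hu⟩ * ⟨n, hnU⟩ * ⟨u, hu⟩⁻¹ := rfl
    rw [this, map_mul, map_mul, map_inv] at hn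
    have h2 : α ⟨n, hnU⟩ = (α ⟨u, hu⟩)⁻¹ * 1 * α ⟨u, hu⟩ := by
      rw [← hn]; group
    simpa using h2

/-- key step of Lemma 4.1 -/
theorem gen_exists_unique_conj {G P : Type*} [Group G] [TopologicalSpace G] [IsTopologicalGroup G]
    [CompactSpace G] [Group P] [TopologicalSpace P] [IsTopologicalGroup P] [T2Space P]
    (U : Subgroup G) [U.Normal] (hU : IsOpen (U : Set G)) (α : U →* P) (hα : Continuous α)
    (hrig : ∀ θ : α.range ≃* α.range, Continuous θ →
      ∃! b : P, ∀ a : α.range, (θ a : P) = b * a * b⁻¹) (t : G) (ht : t ∈ genT U α) :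
    ∃! b : P, ∀ u : U, α (MulAut.conjNormal t u) = b * α u * b⁻¹ := by
  have hker : α.ker.map (MulAut.conjNormal t : U ≃* U).toMonoidHom = α.ker := by
    ext u
    constructor
    · rintro ⟨v, hv, rfl⟩
      have h1 : (v : G) ∈ genN U α := ⟨v, hv, rfl⟩
      have h2 := ((Subgroup.mem_normalizer_iff.1 ht) _).1 h1
      obtain ⟨h3, h4⟩ := (gen_mem_N U α _).1 h2
      exact h4
    · intro hu
      have h1 : (u : G) ∈ genN U α := ⟨u, hu, rfl⟩
      have h2 : t⁻¹ * (u : G) * t ∈ genN U α := by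
        rw [(Subgroup.mem_normalizer_iff.1 ht)]
        simpa [mul_assoc] using h1
      obtain ⟨h3, h4⟩ := (gen_mem_N U α _).1 h2
      refine ⟨⟨_, h3⟩, h4, ?_⟩
      ext
      simp [mul_assoc]
  let e : U ⧸ α.ker ≃* U ⧸ α.ker := QuotientGroup.congr α.ker α.ker (MulAut.conjNormal t : U ≃* U) hker
  let q := QuotientGroup.quotientKerEquivRange α
  let θ : α.range ≃* α.range := q.symm.trans (e.trans q)
  have hθ : ∀ u : U, θ (α.rangeRestrict u) = α.rangeRestrict (MulAut.conjNormal t u) := by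
    intro u
    have h1 : q (QuotientGroup.mk u) = α.rangeRestrict u := rfl
    have h2 : q.symm (α.rangeRestrict u) = QuotientGroup.mk u := by
      rw [← h1, MulEquiv.symm_apply_apply]
    simp only [θ, MulEquiv.trans_apply, h2]
    rfl
  have : CompactSpace U := isCompact_iff_compactSpace.mp (U.isClosed_of_isOpen hU).isCompact
  have hrc : Continuous α.rangeRestrict := by
    exact Continuous.subtype_mk hα _
  have hquot : Topology.IsQuotientMap α.rangeRestrict :=
    (hrc.isClosedMap).isQuotientMap hrc α.rangeRestrict_surjective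
  have hconj : Continuous (fun u : U => (MulAut.conjNormal t u : U)) := by
    have h0 : Continuous (fun u : U => t * (u : G) * t⁻¹) :=
      (continuous_const.mul continuous_subtype_val).mul continuous_const
    have h1 : (fun u : U => ((MulAut.conjNormal t u : U) : G)) = fun u : U => t * (u : G) * t⁻¹ := by
      funext u; simp
    exact Continuous.subtype_mk (h1 ▸ h0) _ |>.congr (fun u => rfl)
  have hθc : Continuous θ := by
    rw [hquot.continuous_iff]
    have : (θ ∘ α.rangeRestrict) = fun u => α.rangeRestrict (MulAut.conjNormal t u) := by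
      funext u; exact hθ u
    rw [this]
    exact hrc.comp hconj
  obtain ⟨b, hb, hbu⟩ := hrig θ hθc
  refine ⟨b, fun u => ?_, fun b' hb' => hbu b' ?_⟩
  · have := hb (α.rangeRestrict u)
    rw [hθ] at this
    exact this
  · rintro ⟨_, u, rfl⟩
    have h1 : (⟨α u, u, rfl⟩ : α.range) = α.rangeRestrict u := rfl
    rw [h1, hθ]
    exact hb' u

theorem gen_normalizer_ext {G P : Type*} [Group G] [TopologicalSpace G] [IsTopologicalGroup G]
    [CompactSpace G] [Group P] [TopologicalSpace P] [IsTopologicalGroup P] [T2Space P]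
    (U : Subgroup G) [U.Normal] (hU : IsOpen (U : Set G)) (α : U →* P) (hα : Continuous α)
    (hrig : ∀ θ : α.range ≃* α.range, Continuous θ →
      ∃! b : P, ∀ a : α.range, (θ a : P) = b * a * b⁻¹) :
    ∃ β : genT U α →* P, Continuous β ∧ ∀ (u : U) (h : (u : G) ∈ genT U α), β ⟨u, h⟩ = α u := by
  classical
  have key := gen_exists_unique_conj U hU α hα hrig
  let b : genT U α → P := fun t => (key t.1 t.2).choose
  have hb : ∀ t : genT U α, ∀ u : U, α (MulAut.conjNormal t.1 u) = b t * α u * (b t)⁻¹ :=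
    fun t => (key t.1 t.2).choose_spec.1
  have hbu : ∀ (t : genT U α) (b' : P),
      (∀ u : U, α (MulAut.conjNormal t.1 u) = b' * α u * b'⁻¹) → b' = b t :=
    fun t b' h => (key t.1 t.2).choose_spec.2 b' h
  let β : genT U α →* P := MonoidHom.mk' b (by
    intro t₁ t₂
    symm
    apply hbu
    intro u
    have : (MulAut.conjNormal ((t₁ * t₂ : genT U α) : G) u : U)
        = MulAut.conjNormal t₁.1 (MulAut.conjNormal t₂.1 u) := by
      ext; simp [mul_assoc]
    rw [this, hb, hb]
    group)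
  have hβU : ∀ (u : U) (h : (u : G) ∈ genT U α), β ⟨u, h⟩ = α u := by
    intro u h
    symm
    apply hbu
    intro u'
    have : (MulAut.conjNormal (u : G) u' : U) = u * u' * u⁻¹ := by
      ext; simp
    simp only [this, map_mul, map_inv]
  refine ⟨β, ?_, hβU⟩
  apply continuous_of_continuousAt_one
  let O : Set (genT U α) := {t | (t : G) ∈ U}
  have hO : IsOpen O := hU.preimage continuous_subtype_val
  have h1 : (1 : genT U α) ∈ O := U.one_mem
  apply ContinuousOn.continuousAt _ (hO.mem_nhds h1)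
  rw [continuousOn_iff_continuous_domRestrict]
  have : O.domRestrict β = fun t : O => α ⟨t.1.1, t.2⟩ := by
    funext t
    exact hβU ⟨t.1.1, t.2⟩ t.1.2
  rw [this]
  exact hα.comp (Continuous.subtype_mk (continuous_subtype_val.comp continuous_subtype_val) _)

end Claimed.Agent.R239
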