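/-
Row 239, package GEN: the set-up of Section 4 (conjugates of `N`, the groups `H_t`, the core `U'`).
Abstract topological groups.
-/
import Claimed.Agent.R239.GEN.Grp
import Claimed.Agent.R239.GEN.FrobA

set_option autoImplicit false

namespace Claimed.Agent.R239

section abstract

variable {G P : Type*} [Group G] [Group P] (U : Subgroup G) [U.Normal] (α : U →* P)

theorem gen_N_le_U : genN U α ≤ U := by
  rintro _ ⟨u, _, rfl⟩
  exact u.2

theorem gen_conj_N_mem_U (t : G) {n : G} (hn : n ∈ genN U α) : t * n * t⁻¹ ∈ U :=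
  ‹U.Normal›.conj_mem _ (gen_N_le_U U α hn) t

/-- `H_t = α (t N t⁻¹)`. -/
def genHt (t : G) : Subgroup P where
  carrier := {h | ∃ n, ∃ hn : n ∈ genN U α, h = α ⟨t * n * t⁻¹, gen_conj_N_mem_U U α t hn⟩}
  one_mem' := ⟨1, Subgroup.one_mem _, by
    have : (⟨t * 1 * t⁻¹, gen_conj_N_mem_U U α t (Subgroup.one_mem _)⟩ : U) = 1 := by
      ext; simp
    rw [this, map_one]⟩
  mul_mem' := by
    rintro _ _ ⟨n, hn, rfl⟩ ⟨n', hn', rfl⟩
    refine ⟨n * n', Subgroup.mul_mem _ hn hn', ?_⟩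
    rw [← map_mul]
    congr 1
    ext
    simp [mul_assoc]
  inv_mem' := by
    rintro _ ⟨n, hn, rfl⟩
    refine ⟨n⁻¹, Subgroup.inv_mem _ hn, ?_⟩
    rw [← map_inv]
    congr 1
    ext
    simp [mul_assoc]

theorem gen_Ht_mul_right (t : G) {u : G} (hu : u ∈ U) : genHt U α (t * u) = genHt U α t := by
  have hT := gen_U_le_T U α hu
  have hT' := gen_U_le_T U α (U.inv_mem hu)
  ext h
  constructor
  · rintro ⟨n, hn, rfl⟩
    refine ⟨u * n * u⁻¹, ((Subgroup.mem_normalizer_iff.1 hT) n).1 hn, ?_⟩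
    congr 1
    ext
    simp [mul_assoc]
  · rintro ⟨n, hn, rfl⟩
    have h1 := ((Subgroup.mem_normalizer_iff.1 hT') n).1 hn
    refine ⟨u⁻¹ * n * u⁻¹⁻¹, h1, ?_⟩
    congr 1
    ext
    simp [mul_assoc]

theorem gen_Ht_finite [Finite (G ⧸ U)] : {H : Subgroup P | ∃ t, t ∉ genT U α ∧ H = genHt U α t}.Finite := by
  apply (Set.finite_range (fun c : G ⧸ U => genHt U α c.out)).subset
  rintro _ ⟨t, _, rfl⟩
  refine ⟨QuotientGroup.mk t, ?_⟩
  obtain ⟨u, hu⟩ := QuotientGroup.mk_out_eq_mul U t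
  simp only
  rw [hu, gen_Ht_mul_right U α t u.2]

theorem gen_Ht_ne_bot [U.FiniteIndex] {t : G} (ht : t ∉ genT U α) : genHt U α t ≠ ⊥ := by
  intro hbot
  apply ht
  apply gen_mem_normalizer_of_conj_le (genN U α) t U.index
    (Nat.pos_of_ne_zero Subgroup.FiniteIndex.index_ne_zero)
    (gen_U_le_T U α (Subgroup.pow_index_mem U t))
  intro n hn
  rw [gen_mem_N]
  refine ⟨gen_conj_N_mem_U U α t hn, ?_⟩
  have : α ⟨t * n * t⁻¹, gen_conj_N_mem_U U α t hn⟩ ∈ genHt U α t := ⟨n, hn, rfl⟩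
  rw [hbot, Subgroup.mem_bot] at this
  exact this

theorem gen_Ht_normal (t : G) {a : P} (ha : a ∈ α.range) {h : P} (hh : h ∈ genHt U α t) :
    a * h * a⁻¹ ∈ genHt U α t := by
  obtain ⟨u, rfl⟩ := ha
  obtain ⟨n, hn, rfl⟩ := hh
  have hu' : t⁻¹ * (u : G) * t ∈ U := by
    have := ‹U.Normal›.conj_mem _ u.2 t⁻¹
    simpa using this
  have hT := gen_U_le_T U α hu'
  refine ⟨(t⁻¹ * u * t) * n * (t⁻¹ * u * t)⁻¹, ((Subgroup.mem_normalizer_iff.1 hT) n).1 hn, ?_⟩
  rw [← map_inv, ← map_mul, ← map_mul]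
  congr 1
  ext
  simp [mul_assoc]

end abstract

section top

variable {G P : Type*} [Group G] [TopologicalSpace G] [IsTopologicalGroup G] [CompactSpace G]
  [Group P] [TopologicalSpace P]

/-- the core `U'`: a clopen normal subgroup of `G` contained in `U` and mapped into `W` by `α`. -/
theorem gen_exists_core (U : Subgroup G) (hU : IsOpen (U : Set G)) (α : U →* P)
    (hα : Continuous α) (W : Subgroup P) (hW : IsOpen (W : Set P)) :
    ∃ U' : Subgroup G, U'.Normal ∧ IsOpen (U' : Set G) ∧ ∃ h : U' ≤ U,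
      ∀ g : U', α (Subgroup.inclusion h g) ∈ W := by
  let U₁ : Subgroup G := (W.comap α).map U.subtype
  have hU₁ : IsOpen (U₁ : Set G) := by
    have h1 : IsOpen ((W.comap α : Subgroup U) : Set U) := hW.preimage hα
    rw [Subgroup.coe_map]
    exact hU.isOpenEmbedding_subtypeVal.isOpenMap _ h1
  have hcl : IsClosed (U₁ : Set G) := U₁.isClosed_of_isOpen hU₁
  have hfin : Finite (G ⧸ U₁) := Subgroup.quotient_finite_of_isOpen U₁ hU₁
  have hfi : U₁.FiniteIndex := Subgroup.finiteIndex_of_finite_quotient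
  have hle : U₁.normalCore ≤ U := by
    intro g hg
    obtain ⟨u, _, rfl⟩ := U₁.normalCore_le hg
    exact u.2
  refine ⟨U₁.normalCore, inferInstance,
    Subgroup.isOpen_of_isClosed_of_finiteIndex _ (U₁.normalCore_isClosed hcl), hle, ?_⟩
  intro g
  obtain ⟨u, hu, hug⟩ := U₁.normalCore_le g.2
  have : Subgroup.inclusion hle g = u := by
    ext
    exact hug.symm
  rw [this]
  exact hu

end top

end Claimed.Agent.R239
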