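/-
Row 239, package GEN: local steps of Proposition 4.3.
-/
import Claimed.Agent.R239.GEN.FrobC
import Claimed.Agent.R239.GEN.FrobD

set_option autoImplicit false

namespace Claimed.Agent.R239

open NumberField Module
open scoped Pointwise

theorem gen_conj_pow_pow {G : Type*} [Group G] {s τ : G} {p : ℕ} (h : s * τ * s⁻¹ = τ ^ p)
    (j : ℕ) : s ^ j * τ * (s ^ j)⁻¹ = τ ^ (p ^ j) := by
  induction j with
  | zero => simp
  | succ j ih =>
    have e : s ^ (j + 1) * τ * (s ^ (j + 1))⁻¹ = s * (s ^ j * τ * (s ^ j)⁻¹) * s⁻¹ := by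
      rw [pow_succ']; group
    rw [e, ih, ← conj_pow, h, ← pow_mul, pow_succ']

/-- a Frobenius lift lies in the decomposition group. -/
theorem gen_frob_mem_decomp {F E : Type*} [Field F] [Field E] [Algebra F E]
    {U : Subgroup Gal(E/F)} {P : Ideal (𝓞 E)} (hP : P.IsMaximal) {σ : Gal(E/F)}
    (h : IsFrob U P σ) : σ ∈ decomp F P := by
  have hN : normAt U P ≠ 0 := by
    intro h0
    have h1 := h.2 0
    rw [h0] at h1
    simp only [smul_zero, pow_zero, zero_sub] at h1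
    exact hP.ne_top ((Ideal.eq_top_iff_one _).2 (by simpa using P.neg_mem h1))
  rw [MulAction.mem_stabilizer_iff]
  have hle : σ • P ≤ P := by
    rw [Ideal.pointwise_smul_def, Ideal.map_le_iff_le_comap]
    intro y hy
    have h1 := h.2 y
    have h2 : y ^ normAt U P ∈ P := Ideal.pow_mem_of_mem P hy _ (Nat.pos_of_ne_zero hN)
    have h3 := P.add_mem h1 h2
    simpa using h3
  exact (gen_isMaximal_smul hP σ).eq_of_le hP.ne_top hle

/-- pull-back of characters along a homomorphism whose image has "finite index". -/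
theorem gen_comap_injective {ℓ : ℕ} [Fact ℓ.Prime] {H H' : Type*} [Group H] [TopologicalSpace H]
    [Group H'] [TopologicalSpace H'] (φ : H →* H') (hφ : Continuous φ)
    (hpow : ∀ w : H', ∃ k : ℕ, 0 < k ∧ ∃ g : H, φ g = w ^ k) :
    Function.Injective (XChar.comap (ℓ := ℓ) φ hφ) := by
  rw [injective_iff_map_eq_zero]
  intro x hx
  ext w
  obtain ⟨k, hk, g, hg⟩ := hpow w
  have h1 : (XChar.comap φ hφ x).1 g = 0 := by rw [hx]; rfl
  rw [XChar.comap_apply, hg, XChar.map_pow] at h1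
  have h2 : (k : ℚ_[ℓ]) ≠ 0 := by exact_mod_cast hk.ne'
  exact (mul_eq_zero.1 h1).resolve_left h2

section

variable {ℓ : ℕ} [Fact ℓ.Prime] {Ω S : Type} [Field Ω] [Algebra ℚ Ω]
    [IsGalois ℚ Ω] [Field S] [Algebra ℚ S] [IsGalois ℚ S]

/-- the powers of a Frobenius lift normalising an active tame generator go to `D_Q`, compatibly
with the cyclotomic characters. -/
theorem gen_local_step (hall : GenAll ℓ Ω S) (T : Subgroup Gal(Ω/ℚ))
    (hT : IsOpen (T : Set Gal(Ω/ℚ))) (β : T →* Gal(S/ℚ)) (hβ : Continuous β)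
    (hβo : IsOpen (Set.range β)) (p : ℕ) (P : Ideal (𝓞 Ω)) (hP : P.IsMaximal) (hPℓ : ¬ Over P ℓ)
    (τ : T) (hτ : IsTameGen ℓ T P (τ : Gal(Ω/ℚ))) (hact : β τ ≠ 1) (Q : Ideal (𝓞 S))
    (hQ : Q.IsMaximal) (hτQ : β τ ∈ inert ℚ Q) (s : Gal(Ω/ℚ)) (hsD : s ∈ decomp ℚ P)
    (hs : s * τ * s⁻¹ = (τ : Gal(Ω/ℚ)) ^ p) (j : ℕ) (hj : s ^ j ∈ T) :
    β ⟨s ^ j, hj⟩ ∈ decomp ℚ Q ∧ chi ℓ ℚ S (β ⟨s ^ j, hj⟩) = chi ℓ ℚ Ω (s ^ j) := by
  obtain ⟨Q', hQ', _, hτQ', hmain⟩ := hall.lc.main T hT β hβ hβo P τ hP hPℓ hτ hact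
  have hQQ : Q' = Q := hall.tgt.inter Q' Q hQ' hQ (β τ) (gen_inert_le_decomp _ hτQ')
    (gen_inert_le_decomp _ hτQ) hact
  subst hQQ
  apply hmain ⟨s ^ j, hj⟩ (Subgroup.pow_mem _ hsD j)
  refine ⟨p ^ j, ?_⟩
  ext1
  simpa using gen_conj_pow_pow hs j

end

end Claimed.Agent.R239
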