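/-
Row 239, package GEN: Proposition 4.3, selection of the infinite family of primes with a fixed
Frobenius class `δ`.
-/
import Claimed.Agent.R239.GEN.FrobE

set_option autoImplicit false

namespace Claimed.Agent.R239

open NumberField Module
open scoped Pointwise

section

variable {ℓ : ℕ} [Fact ℓ.Prime] {Ω S : Type} [Field Ω] [Algebra ℚ Ω]
    [IsGalois ℚ Ω] [Field S] [Algebra ℚ S] [IsGalois ℚ S]

/-- the local data at a source prime `p` used in the proof of Prop 4.3. -/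
def GenData (ℓ : ℕ) {Ω S : Type} [Field Ω] [Algebra ℚ Ω] [Field S] [Algebra ℚ S]
    (T U' : Subgroup Gal(Ω/ℚ)) (β : T →* Gal(S/ℚ)) (W : Subgroup Gal(S/ℚ))
    (γ : Gal(S/ℚ)) (δ : Gal(Ω/ℚ)) (p : ℕ) : Prop :=
  p.Prime ∧ p ≠ ℓ ∧ ∃ (P : Ideal (𝓞 Ω)) (τ : T) (Q : Ideal (𝓞 S)) (s : Gal(Ω/ℚ)),
    P.IsMaximal ∧ Over P p ∧ ¬ Over P ℓ ∧ IsTameGen ℓ T P (τ : Gal(Ω/ℚ)) ∧ β τ ≠ 1 ∧
    Q.IsMaximal ∧ ¬ Over Q ℓ ∧ β τ ∈ inert ℚ Q ∧
    decomp ℚ Q ⊔ W = Subgroup.zpowers γ ⊔ W ∧ IsFrob ⊤ P s ∧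
    s * τ * s⁻¹ = (τ : Gal(Ω/ℚ)) ^ p ∧ δ⁻¹ * s ∈ U'

/-- there is a class `δ` with infinitely many primes carrying local data. -/
theorem gen_exists_delta (hall : GenAll ℓ Ω S) (T : Subgroup Gal(Ω/ℚ))
    (hT : IsOpen (T : Set Gal(Ω/ℚ))) (β : T →* Gal(S/ℚ)) (hβ : Continuous β)
    (hβo : IsOpen (Set.range β)) (U' : Subgroup Gal(Ω/ℚ)) [U'.Normal]
    (hU' : IsOpen (U' : Set Gal(Ω/ℚ))) (hU'T : U' ≤ T) (W : Subgroup Gal(S/ℚ)) [W.Normal]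
    (hW : IsOpen (W : Set Gal(S/ℚ))) (hβW : ∀ g : U', β (Subgroup.inclusion hU'T g) ∈ W)
    (γ : Gal(S/ℚ)) : ∃ δ : Gal(Ω/ℚ), {p : ℕ | GenData ℓ T U' β W γ δ p}.Infinite := by
  classical
  have hTc : CompactSpace T :=
    isCompact_iff_compactSpace.mp (T.isClosed_of_isOpen hT).isCompact
  let φ : U' →* Gal(S/ℚ) := β.comp (Subgroup.inclusion hU'T)
  have hφ : Continuous φ := hβ.comp (continuous_inclusion hU'T)
  have hφo : IsOpen (Set.range φ) := by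
    have h1 : IsOpen ((U'.subgroupOf T : Subgroup T) : Set T) := hU'.preimage continuous_subtype_val
    have h2 := gen_isOpen_map β hβ hβo (U'.subgroupOf T) h1
    have h3 : Set.range φ = (((U'.subgroupOf T).map β : Subgroup Gal(S/ℚ)) : Set Gal(S/ℚ)) := by
      ext x
      constructor
      · rintro ⟨g, rfl⟩
        exact ⟨Subgroup.inclusion hU'T g, g.2, rfl⟩
      · rintro ⟨t, ht, rfl⟩
        exact ⟨⟨t.1, ht⟩, rfl⟩
    rw [h3]; exact h2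
  have hinf := gen_source_primes_infinite hall U' hU' φ hφ hφo W hW hβW γ
  have hram := hall.hilΩ.ram_finite U' hU'
  have hinf2 := hinf.sdiff hram
  have hfiU' : Finite (Gal(Ω/ℚ) ⧸ U') := Subgroup.quotient_finite_of_isOpen U' hU'
  by_contra hcon
  push Not at hcon
  have hfin : (⋃ c : Gal(Ω/ℚ) ⧸ U', {p : ℕ | GenData ℓ T U' β W γ c.out p}).Finite :=
    Set.finite_iUnion (fun c => hcon c.out)
  apply hinf2 (hfin.subset ?_)
  rintro p ⟨⟨hp, hpℓ, P, τ, Q, hP, hPp, hτ, hact, hQ, hQℓ, hτQ, _, hD⟩, hnr⟩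
  have hI : inert ℚ P ≤ U' := by
    by_contra h
    exact hnr ⟨hp, P, hP, hPp, h⟩
  have hPℓ : ¬ Over P ℓ := fun h => hpℓ (gen_over_unique hP.ne_top hp Fact.out hPp h)
  have e1 : inert ℚ P ⊓ U' = inert ℚ P ⊓ ⊤ := by
    rw [inf_top_eq, inf_eq_left]; exact hI
  have e2 : inert ℚ P ⊓ U' = inert ℚ P ⊓ T := by
    rw [inf_eq_left.2 hI, inf_eq_left.2 (hI.trans hU'T)]
  obtain ⟨s, hs, hsτ⟩ := hall.src.frob p P τ hP hPp hp hpℓ (gen_tameGen_congr e1 hτ)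
  rw [Set.mem_iUnion]
  refine ⟨QuotientGroup.mk s, hp, hpℓ, P, Subgroup.inclusion hU'T τ, Q, s, hP, hPp, hPℓ,
    gen_tameGen_congr e2 hτ, hact, hQ, hQℓ, hτQ, hD, hs, hsτ, ?_⟩
  apply QuotientGroup.eq.1
  exact QuotientGroup.out_eq' _

end

end Claimed.Agent.R239
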