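/-
Row 239, package GEN: Proposition 4.3, the generation claim `D = C`.
-/
import Claimed.Agent.R239.GEN.FrobF

set_option autoImplicit false

namespace Claimed.Agent.R239

open NumberField Module
open scoped Pointwise

theorem gen_pow_congr {G : Type*} [Group G] (N : Subgroup G) [N.Normal] {a b : G}
    (h : a⁻¹ * b ∈ N) (j : ℕ) : (a ^ j)⁻¹ * b ^ j ∈ N := by
  have e1 : (QuotientGroup.mk a : G ⧸ N) = QuotientGroup.mk b := QuotientGroup.eq.2 h
  apply QuotientGroup.eq.1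
  rw [QuotientGroup.mk_pow, QuotientGroup.mk_pow, e1]

section

variable {ℓ : ℕ} [Fact ℓ.Prime] {Ω S : Type} [Field Ω] [Algebra ℚ Ω]
    [IsGalois ℚ Ω] [Field S] [Algebra ℚ S] [IsGalois ℚ S]

theorem gen_generation_claim (hall : GenAll ℓ Ω S)
    (U : Subgroup Gal(Ω/ℚ)) [U.Normal] (hU : IsOpen (U : Set Gal(Ω/ℚ)))
    (α : U →* Gal(S/ℚ))
    (β : genT U α →* Gal(S/ℚ)) (hβ : Continuous β) (hβo : IsOpen (Set.range β))
    (hβα : ∀ (u : U) (h : (u : Gal(Ω/ℚ)) ∈ genT U α), β ⟨u, h⟩ = α u)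
    (U' : Subgroup Gal(Ω/ℚ)) [U'.Normal] (hU' : IsOpen (U' : Set Gal(Ω/ℚ))) (_hU'U : U' ≤ U)
    (hU'T : U' ≤ genT U α)
    (W : Subgroup Gal(S/ℚ)) [W.Normal] (hW : IsOpen (W : Set Gal(S/ℚ)))
    (hβW : ∀ g : U', β (Subgroup.inclusion hU'T g) ∈ W) (γ : Gal(S/ℚ)) (δ : Gal(Ω/ℚ))
    (hinf : {p : ℕ | GenData ℓ (genT U α) U' β W γ δ p}.Infinite)
    (hsep : ∀ d : Gal(S/ℚ), d ∈ Subgroup.zpowers γ ⊔ W → γ ∉ Subgroup.zpowers d ⊔ W →
        ∃ (x : XChar ℓ W) (c : ℕ), 0 < c ∧ XChar.conj W d x = x ∧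
          ∑ i ∈ Finset.range c, XChar.conj W (γ ^ i) x = 0 ∧
          x ∉ ⨆ H ∈ {H : Subgroup Gal(S/ℚ) | ∃ t, t ∉ genT U α ∧ H = genHt U α t}, genXInv ℓ W H)
    (f : ℕ) (hf : 0 < f) (hfT : δ ^ f ∈ genT U α)
    (hfmin : ∀ j, 0 < j → j < f → δ ^ j ∉ genT U α) :
    γ ∈ Subgroup.zpowers (β ⟨δ ^ f, hfT⟩) ⊔ W := by
  classical
  have hUT : U ≤ (genT U α) := gen_U_le_T U α
  have hT : IsOpen ((genT U α) : Set Gal(Ω/ℚ)) := Subgroup.isOpen_mono hUT hU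
  set d := β ⟨δ ^ f, hfT⟩ with hd
  -- congruences between `s` and `δ`
  have hcongT : ∀ (s : Gal(Ω/ℚ)), δ⁻¹ * s ∈ U' → ∀ j, δ ^ j ∈ (genT U α) → s ^ j ∈ (genT U α) := by
    intro s hs j hj
    have h1 := hU'T (gen_pow_congr U' hs j)
    have h2 := (genT U α).mul_mem hj h1
    simpa using h2
  have hcongW : ∀ (s : Gal(Ω/ℚ)), δ⁻¹ * s ∈ U' → ∀ j (h : δ ^ j ∈ (genT U α)) (h' : s ^ j ∈ (genT U α)),
      (β ⟨δ ^ j, h⟩)⁻¹ * β ⟨s ^ j, h'⟩ ∈ W := by
    intro s hs j h h'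
    have h1 := hβW ⟨_, gen_pow_congr U' hs j⟩
    have e : Subgroup.inclusion hU'T ⟨_, gen_pow_congr U' hs j⟩
        = (⟨δ ^ j, h⟩ : (genT U α))⁻¹ * ⟨s ^ j, h'⟩ := by
      ext; simp
    rw [e, map_mul, map_inv] at h1
    exact h1
  by_contra hγ
  -- `d ∈ C`
  have hdC : d ∈ Subgroup.zpowers γ ⊔ W := by
    obtain ⟨p, hp⟩ := hinf.nonempty
    obtain ⟨_, _, P, τ, Q, s, hP, _, hPℓ, hτ, hact, hQ, _, hτQ, hD, hs, hsτ, hsδ⟩ := hp
    have hsT := hcongT s hsδ f hfT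
    have h1 := (gen_local_step hall (genT U α) hT β hβ hβo p P hP hPℓ τ hτ hact Q hQ hτQ s
      (gen_frob_mem_decomp hP hs) hsτ f hsT).1
    have h2 : β ⟨s ^ f, hsT⟩ ∈ Subgroup.zpowers γ ⊔ W := by
      rw [← hD]; exact (le_sup_left : decomp ℚ Q ≤ decomp ℚ Q ⊔ W) h1
    have h3 := hcongW s hsδ f hfT hsT
    have h4 : (β ⟨s ^ f, hsT⟩) * ((β ⟨δ ^ f, hfT⟩)⁻¹ * β ⟨s ^ f, hsT⟩)⁻¹
        ∈ Subgroup.zpowers γ ⊔ W :=
      Subgroup.mul_mem _ h2 ((le_sup_right : W ≤ Subgroup.zpowers γ ⊔ W) (W.inv_mem h3))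
    simpa [hd] using h4
  obtain ⟨x, c, hc, hdx, hsum, hxn⟩ := hsep d hdC hγ
  apply hxn
  -- the pull-back
  let φ' : U' →* W := (β.comp (Subgroup.inclusion hU'T)).codRestrict W hβW
  have hφ' : Continuous φ' :=
    Continuous.subtype_mk (hβ.comp (continuous_inclusion hU'T)) _
  have hφ'val : ∀ g : U', ((φ' g : W) : Gal(S/ℚ)) = β ⟨g.1, hU'T g.2⟩ := fun g => rfl
  let j : XChar ℓ W →ₗ[ℚ_[ℓ]] XChar ℓ U' := XChar.comap φ' hφ'
  have hU'fi : U'.FiniteIndex := gen_finiteIndex_of_isOpen U' hU'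
  set a := U'.index with ha
  have hapos : 0 < a := Nat.pos_of_ne_zero Subgroup.FiniteIndex.index_ne_zero
  have hδa : δ ^ a ∈ U' := Subgroup.pow_index_mem U' δ
  have hdet : ∑ i ∈ Finset.range a, XChar.conj U' (δ ^ i) (j x) = 0 := by
    apply gen_detect_avg hall.src U' hU' (j x) δ a hapos hδa
    refine hinf.mono ?_
    rintro p ⟨hp, hpℓ, P, τ, Q, s, hP, hPp, hPℓ, hτ, hact, hQ, hQℓ, hτQ, hD, hs, hsτ, hsδ⟩
    have hsa : s ^ a ∈ U' := Subgroup.pow_index_mem U' s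
    refine ⟨hp, hpℓ, P, hP, hPp, s, hs, hsδ, hsa, ?_⟩
    have h1 := (gen_local_step hall (genT U α) hT β hβ hβo p P hP hPℓ τ hτ hact Q hQ hτQ s
      (gen_frob_mem_decomp hP hs) hsτ a (hU'T hsa)).1
    have hγQ : γ ∈ decomp ℚ Q ⊔ W := by
      rw [hD]; exact (le_sup_left : Subgroup.zpowers γ ≤ _) (Subgroup.mem_zpowers γ)
    exact gen_vanish_decomp hall.xl hall.hilS W hW Q hQ hQℓ γ hγQ x c hc hsum (φ' ⟨s ^ a, hsa⟩) h1
  -- injectivity of the pull-back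
  have hTc : CompactSpace (genT U α) :=
    isCompact_iff_compactSpace.mp ((genT U α).isClosed_of_isOpen hT).isCompact
  have hj : Function.Injective j := by
    apply gen_comap_injective φ' hφ'
    intro w
    have h1 : IsOpen ((U'.subgroupOf (genT U α) : Subgroup (genT U α)) : Set (genT U α)) := hU'.preimage continuous_subtype_val
    have h2 := gen_isOpen_map β hβ hβo (U'.subgroupOf (genT U α)) h1
    have h3 : ((U'.subgroupOf (genT U α)).map β).FiniteIndex := gen_finiteIndex_of_isOpen _ h2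
    obtain ⟨k, hk, -, t, ht, htk⟩ := Subgroup.exists_pow_mem_of_index_ne_zero
      h3.index_ne_zero (w : Gal(S/ℚ))
    refine ⟨k, hk, ⟨t.1, ht⟩, ?_⟩
    ext1
    rw [hφ'val]
    simpa using htk
  let ρY : Representation ℚ_[ℓ] Gal(Ω/ℚ) (XChar ℓ U') := genConjRep ℓ U'
  let ρX : Representation ℚ_[ℓ] (genT U α) (XChar ℓ W) := (genConjRep ℓ W).comp β
  have hmem := gen_average_mem' ρY (genT U α) U U' (genN U α) hUT
    (fun u hu => by
      ext1 z
      exact gen_conj_of_mem U' hu z)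
    ρX
    (fun u hu => by
      ext1 z
      exact gen_conj_of_mem W (hβW ⟨u.1, hu⟩) z)
    j hj
    (fun h z => by
      ext g
      change (XChar.conj U' (h : Gal(Ω/ℚ)) (XChar.comap φ' hφ' z)).1 g
        = (XChar.comap φ' hφ' (XChar.conj W (β h) z)).1 g
      rw [XChar.conj_apply, XChar.comap_apply, XChar.comap_apply, XChar.conj_apply]
      apply congrArg
      apply Subtype.ext
      rw [hφ'val]
      simp only [hφ'val]
      rw [← map_inv, ← map_mul, ← map_mul]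
      rfl)
    (fun t n hn => gen_conj_N_mem_U U α t hn)
    (fun n hn h z => by
      obtain ⟨hnU, hn1⟩ := (gen_mem_N U α n).1 hn
      change XChar.conj W (β ⟨n, h⟩) z = z
      rw [hβα ⟨n, hnU⟩ h, hn1, gen_conj_one])
    δ a hapos x
    (fun i h => by
      change XChar.conj W (β ⟨δ ^ i, h⟩) x = x
      have hr : i % f = 0 := by
        by_contra hne
        have h1 : δ ^ (i % f) ∈ (genT U α) := by
          have e : δ ^ (i % f) = ((δ ^ f) ^ (i / f))⁻¹ * δ ^ i := by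
            have e0 : δ ^ i = (δ ^ f) ^ (i / f) * δ ^ (i % f) := by
              rw [← pow_mul, ← pow_add, Nat.div_add_mod]
            rw [e0, inv_mul_cancel_left]
          rw [e]
          exact (genT U α).mul_mem ((genT U α).inv_mem ((genT U α).pow_mem hfT _)) h
        exact hfmin _ (Nat.pos_of_ne_zero hne) (Nat.mod_lt _ hf) h1
      have e : (⟨δ ^ i, h⟩ : (genT U α)) = ⟨δ ^ f, hfT⟩ ^ (i / f) := by
        ext1
        have := Nat.div_add_mod i f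
        rw [hr, add_zero] at this
        simp only [Subgroup.coe_pow]
        rw [← pow_mul, this]
      rw [e, map_pow]
      have hst : d ∈ genStab W x := hdx
      exact Subgroup.pow_mem _ hst _)
    hdet
  refine (iSup_le (a := ⨆ H ∈ {H : Subgroup Gal(S/ℚ) | ∃ t, t ∉ genT U α ∧ H = genHt U α t},
    genXInv ℓ W H) ?_ : _ ≤ _) hmem
  rintro ⟨t, ht⟩
  refine le_trans ?_ (le_iSup₂_of_le (genHt U α t) ⟨t, ht, rfl⟩ le_rfl)
  intro z hz g hg
  obtain ⟨n, hn, rfl⟩ := hg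
  have hmT : t * n * t⁻¹ ∈ (genT U α) := hUT (gen_conj_N_mem_U U α t hn)
  have := hz n hn hmT
  rw [← hβα ⟨_, gen_conj_N_mem_U U α t hn⟩ hmT]
  exact this

end

end Claimed.Agent.R239
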