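/-
Row 239, package GEN: Proposition 4.3 (Frobenius generation).
-/
import Claimed.Agent.R239.GEN.Amp
import Claimed.Agent.R239.GEN.FrobG

set_option autoImplicit false

namespace Claimed.Agent.R239

open NumberField Module
open scoped Pointwise

/-- the least positive exponent `f` with `δ^f ∈ T` is at most the index of `T`. -/
theorem gen_min_pow_le_index {G : Type*} [Group G] (T : Subgroup G) [T.FiniteIndex] (δ : G)
    (f : ℕ) (hfmin : ∀ j, 0 < j → j < f → δ ^ j ∉ T) : f ≤ T.index := by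
  have hinj : Function.Injective (fun i : Fin f => (QuotientGroup.mk (δ ^ (i : ℕ)) : G ⧸ T)) := by
    have key : ∀ i j : Fin f, (i : ℕ) < j →
        (QuotientGroup.mk (δ ^ (i : ℕ)) : G ⧸ T) ≠ QuotientGroup.mk (δ ^ (j : ℕ)) := by
      intro i j hij h
      have h1 := QuotientGroup.eq.1 h
      have e : (δ ^ (i : ℕ))⁻¹ * δ ^ (j : ℕ) = δ ^ ((j : ℕ) - i) := by
        have : (j : ℕ) = i + (j - i) := by omega
        conv_lhs => rw [this, pow_add]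
        simp
      rw [e] at h1
      exact hfmin _ (by omega) (by omega) h1
    intro i j hij
    by_contra hne
    rcases lt_or_gt_of_ne (fun h => hne (Fin.ext h) : (i : ℕ) ≠ j) with h | h
    · exact key i j h hij
    · exact key j i h hij.symm
  have := Nat.card_le_card_of_injective _ hinj
  simpa [Subgroup.index] using this

/-- Proposition 4.3 (Frobenius generation), in the form used by Theorem 4.4. -/
theorem gen_frobenius_generation {ℓ : ℕ} [Fact ℓ.Prime] {Ω S : Type} [Field Ω] [Algebra ℚ Ω]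
    [IsGalois ℚ Ω] [Field S] [Algebra ℚ S] [IsGalois ℚ S] (hall : GenAll ℓ Ω S)
    (hsq : ∀ a : S, ∃ b : S, b ^ 2 = a)
    (U : Subgroup Gal(Ω/ℚ)) [U.Normal] (hU : IsOpen (U : Set Gal(Ω/ℚ)))
    (α : U →* Gal(S/ℚ)) (hα : Continuous α) (hαo : IsOpen (Set.range α))
    (β : genT U α →* Gal(S/ℚ)) (hβ : Continuous β)
    (hβα : ∀ (u : U) (h : (u : Gal(Ω/ℚ)) ∈ genT U α), β ⟨u, h⟩ = α u)
    (W₀ : Subgroup Gal(S/ℚ)) (hW₀ : IsOpen (W₀ : Set Gal(S/ℚ))) (γ : Gal(S/ℚ)) :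
    {p : ℕ | p.Prime ∧ p ≠ ℓ ∧ ∃ (P : Ideal (𝓞 Ω)) (s : Gal(Ω/ℚ)) (f : ℕ),
      P.IsMaximal ∧ Over P p ∧ IsFrob ⊤ P s ∧ 0 < f ∧ f ≤ (genT U α).index ∧
      ∃ h : s ^ f ∈ genT U α, chi ℓ ℚ S (β ⟨s ^ f, h⟩) = chi ℓ ℚ Ω (s ^ f) ∧
        γ ∈ Subgroup.zpowers (β ⟨s ^ f, h⟩) ⊔ W₀}.Infinite := by
  classical
  have hUT : U ≤ genT U α := gen_U_le_T U α
  have hT : IsOpen ((genT U α : Subgroup Gal(Ω/ℚ)) : Set Gal(Ω/ℚ)) := Subgroup.isOpen_mono hUT hU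
  have hUfi : U.FiniteIndex := gen_finiteIndex_of_isOpen U hU
  have hTfi : (genT U α).FiniteIndex := gen_finiteIndex_of_isOpen _ hT
  have hUfin : Finite (Gal(Ω/ℚ) ⧸ U) := Subgroup.quotient_finite_of_isOpen U hU
  have hA : IsOpen ((α.range : Subgroup Gal(S/ℚ)) : Set Gal(S/ℚ)) := by
    rw [MonoidHom.coe_range]; exact hαo
  have hβo : IsOpen (Set.range β) := by
    have h1 : α.range ≤ β.range := by
      rintro _ ⟨u, rfl⟩
      exact ⟨⟨u, hUT u.2⟩, hβα u _⟩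
    have := Subgroup.isOpen_mono h1 hA
    rwa [MonoidHom.coe_range] at this
  obtain ⟨W, hWn, hWo, hWle, hsep⟩ := gen_amplify hall.xl hsq α.range hA
    {H : Subgroup Gal(S/ℚ) | ∃ t, t ∉ genT U α ∧ H = genHt U α t} (gen_Ht_finite U α)
    (by rintro _ ⟨t, ht, rfl⟩; exact gen_Ht_ne_bot U α ht)
    (by rintro _ ⟨t, ht, rfl⟩ a ha h hh; exact gen_Ht_normal U α t ha hh) W₀ hW₀
  obtain ⟨U', hU'n, hU'o, hU'U, hU'W⟩ := gen_exists_core U hU α hα W hWo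
  have hU'T : U' ≤ genT U α := hU'U.trans hUT
  have hβW : ∀ g : U', β (Subgroup.inclusion hU'T g) ∈ W := by
    intro g
    have := hβα (Subgroup.inclusion hU'U g) (hU'T g.2)
    have e : Subgroup.inclusion hU'T g
        = ⟨((Subgroup.inclusion hU'U g : U) : Gal(Ω/ℚ)), hU'T g.2⟩ := rfl
    rw [e, this]
    exact hU'W g
  obtain ⟨δ, hinf⟩ := gen_exists_delta hall (genT U α) hT β hβ hβo U' hU'o hU'T W hWo hβW γ
  have hex : ∃ j, 0 < j ∧ δ ^ j ∈ genT U α :=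
    ⟨U.index, Nat.pos_of_ne_zero Subgroup.FiniteIndex.index_ne_zero,
      hUT (Subgroup.pow_index_mem U δ)⟩
  set f := Nat.find hex with hfdef
  have hspec : 0 < f ∧ δ ^ f ∈ genT U α := Nat.find_spec hex
  obtain ⟨hf, hfT⟩ := hspec
  have hfmin : ∀ j, 0 < j → j < f → δ ^ j ∉ genT U α := fun j hj hjf h =>
    Nat.find_min hex hjf ⟨hj, h⟩
  have hfle : f ≤ (genT U α).index := gen_min_pow_le_index _ δ f hfmin
  have hgen := gen_generation_claim hall U hU α β hβ hβo hβα U' hU'o hU'U hU'T W hWo hβW γ δ hinf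
    (hsep γ) f hf hfT hfmin
  refine hinf.mono ?_
  rintro p ⟨hp, hpℓ, P, τ, Q, s, hP, hPp, hPℓ, hτ, hact, hQ, hQℓ, hτQ, hD, hs, hsτ, hsδ⟩
  have hcong := gen_pow_congr U' hsδ f
  have hsT : s ^ f ∈ genT U α := by
    have h2 := (genT U α).mul_mem hfT (hU'T hcong)
    simpa using h2
  refine ⟨hp, hpℓ, P, s, f, hP, hPp, hs, hf, hfle, hsT,
    (gen_local_step hall _ hT β hβ hβo p P hP hPℓ τ hτ hact Q hQ hτQ s
      (gen_frob_mem_decomp hP hs) hsτ f hsT).2, ?_⟩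
  have hW' : (β ⟨δ ^ f, hfT⟩)⁻¹ * β ⟨s ^ f, hsT⟩ ∈ W := by
    have h1 := hβW ⟨_, hcong⟩
    have e : Subgroup.inclusion hU'T ⟨_, hcong⟩
        = (⟨δ ^ f, hfT⟩ : genT U α)⁻¹ * ⟨s ^ f, hsT⟩ := by
      ext; simp
    rw [e, map_mul, map_inv] at h1
    exact h1
  have hle : Subgroup.zpowers (β ⟨δ ^ f, hfT⟩) ⊔ W ≤ Subgroup.zpowers (β ⟨s ^ f, hsT⟩) ⊔ W₀ := by
    refine sup_le ?_ (hWle.trans le_sup_right)
    rw [Subgroup.zpowers_le]
    have h1 : β ⟨s ^ f, hsT⟩ ∈ Subgroup.zpowers (β ⟨s ^ f, hsT⟩) ⊔ W₀ :=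
      (le_sup_left : Subgroup.zpowers (β ⟨s ^ f, hsT⟩) ≤ _) (Subgroup.mem_zpowers _)
    have h2 : ((β ⟨δ ^ f, hfT⟩)⁻¹ * β ⟨s ^ f, hsT⟩)⁻¹ ∈ Subgroup.zpowers (β ⟨s ^ f, hsT⟩) ⊔ W₀ :=
      (le_sup_right : W₀ ≤ _) (hWle (W.inv_mem hW'))
    have h3 := Subgroup.mul_mem _ h1 h2
    simpa using h3
  exact hle hgen

end Claimed.Agent.R239
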