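/-
Row 239, package GEN: Theorem 4.4 and the OUTPUT of the package (`gen_main`).
-/
import Claimed.Agent.R239.GEN.Frob

set_option autoImplicit false

namespace Claimed.Agent.R239

open NumberField Module
open scoped Pointwise Nat

section

variable {ℓ : ℕ} [Fact ℓ.Prime] {Ω S : Type} [Field Ω] [Algebra ℚ Ω]
    [IsGalois ℚ Ω] [Field S] [Algebra ℚ S] [IsGalois ℚ S]

/-- Theorem 4.4, first half: `β` is surjective. -/
theorem gen_surjective (hall : GenAll ℓ Ω S) (hsq : ∀ a : S, ∃ b : S, b ^ 2 = a)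
    (U : Subgroup Gal(Ω/ℚ)) [U.Normal] (hU : IsOpen (U : Set Gal(Ω/ℚ)))
    (α : U →* Gal(S/ℚ)) (hα : Continuous α) (hαo : IsOpen (Set.range α))
    (β : genT U α →* Gal(S/ℚ)) (hβ : Continuous β)
    (hβα : ∀ (u : U) (h : (u : Gal(Ω/ℚ)) ∈ genT U α), β ⟨u, h⟩ = α u) :
    Function.Surjective β := by
  intro γ
  by_contra hγ
  have hT : IsOpen ((genT U α : Subgroup Gal(Ω/ℚ)) : Set Gal(Ω/ℚ)) :=
    Subgroup.isOpen_mono (gen_U_le_T U α) hU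
  have hTc : CompactSpace (genT U α) :=
    isCompact_iff_compactSpace.mp ((genT U α).isClosed_of_isOpen hT).isCompact
  have hcl : IsClosed (Set.range β) := (isCompact_range hβ).isClosed
  let O : Set Gal(S/ℚ) := {g | γ * g ∉ Set.range β}
  have hO : IsOpen O := hcl.isOpen_compl.preimage (continuous_const.mul continuous_id)
  have h1O : (1 : Gal(S/ℚ)) ∈ O := by
    change γ * 1 ∉ Set.range β
    rw [mul_one]; exact hγ
  obtain ⟨W₀, hW₀⟩ := ProfiniteGrp.exist_openNormalSubgroup_sub_open_nhds_of_one hO h1O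
  have hn : (W₀ : Subgroup Gal(S/ℚ)).Normal := W₀.isNormal'
  obtain ⟨p, -, -, P, s, f, -, -, -, -, -, h, -, hmem⟩ :=
    (gen_frobenius_generation hall hsq U hU α hα hαo β hβ hβα (W₀ : Subgroup Gal(S/ℚ))
      W₀.isOpen' γ).nonempty
  obtain ⟨a, ha, w, hw, haw⟩ := Subgroup.mem_sup_of_normal_right.1 hmem
  obtain ⟨k, rfl⟩ := Subgroup.mem_zpowers_iff.1 ha
  have h2 : w⁻¹ ∈ O := hW₀ (Subgroup.inv_mem _ hw)
  apply h2
  refine ⟨⟨s ^ f, h⟩ ^ k, ?_⟩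
  rw [map_zpow, ← haw]
  group

/-- arithmetic step of Theorem 4.4: if an `f`-th power generates `𝔽_ℓˣ`, `f ≤ n` and
`n! ∣ ℓ - 1`, then `f = 1`. -/
theorem gen_f_eq_one (ℓ : ℕ) [Fact ℓ.Prime] (n f : ℕ) (hf : 0 < f) (hfn : f ≤ n)
    (hℓ : n ! ∣ ℓ - 1) (u : (ZMod ℓ)ˣ) (hu : ∀ z : (ZMod ℓ)ˣ, z ∈ Subgroup.zpowers (u ^ f)) :
    f = 1 := by
  by_contra hne
  have hℓp : ℓ.Prime := Fact.out
  set r := f.minFac with hr
  have hrp : r.Prime := Nat.minFac_prime hne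
  have hrf : r ∣ f := Nat.minFac_dvd f
  have hrn : r ≤ n := (Nat.le_of_dvd hf hrf).trans hfn
  have hrℓ : r ∣ ℓ - 1 := (Nat.dvd_factorial hrp.pos hrn).trans hℓ
  have hcard : Nat.card (ZMod ℓ)ˣ = ℓ - 1 := by
    rw [Nat.card_eq_fintype_card, ZMod.card_units_eq_totient, Nat.totient_prime hℓp]
  have hord : orderOf (u ^ f) = ℓ - 1 := by
    rw [orderOf_eq_card_of_forall_mem_zpowers hu, hcard]
  obtain ⟨a, ha⟩ := hrf
  obtain ⟨b, hb⟩ := hrℓ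
  have h1 : (u ^ f) ^ b = 1 := by
    rw [← pow_mul, ha]
    have : r * a * b = (ℓ - 1) * a := by rw [hb]; ring
    rw [this, pow_mul, ← hcard, pow_card_eq_one']
    simp
  have h2 : ℓ - 1 ∣ b := hord ▸ orderOf_dvd_of_pow_eq_one h1
  have hℓ1 : 0 < ℓ - 1 := by have := hℓp.two_le; omega
  have hbpos : 0 < b := by
    rcases Nat.eq_zero_or_pos b with h | h
    · rw [h, mul_zero] at hb; omega
    · exact h
  have h3 := Nat.le_of_dvd hbpos h2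
  have h4 : 2 * b ≤ r * b := Nat.mul_le_mul_right _ hrp.two_le
  omega

/-- Theorem 4.4, second half: `log χ_ℓ ∘ β = log χ_{k,ℓ}` for `ℓ ≡ 1 mod [k:ℚ]!`. -/
theorem gen_logchi (hall : GenAll ℓ Ω S) (hsq : ∀ a : S, ∃ b : S, b ^ 2 = a)
    (U : Subgroup Gal(Ω/ℚ)) [U.Normal] (hU : IsOpen (U : Set Gal(Ω/ℚ)))
    (α : U →* Gal(S/ℚ)) (hα : Continuous α) (hαo : IsOpen (Set.range α))
    (β : genT U α →* Gal(S/ℚ)) (hβ : Continuous β)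
    (hβα : ∀ (u : U) (h : (u : Gal(Ω/ℚ)) ∈ genT U α), β ⟨u, h⟩ = α u)
    (hℓ : ((genT U α).index)! ∣ ℓ - 1) (t : genT U α) :
    logChi ℓ ℚ S (β t) = logChi ℓ ℚ Ω (t : Gal(Ω/ℚ)) := by
  have hT : IsOpen ((genT U α : Subgroup Gal(Ω/ℚ)) : Set Gal(Ω/ℚ)) :=
    Subgroup.isOpen_mono (gen_U_le_T U α) hU
  obtain ⟨W₀, hW₀n, hW₀o, hW₀χ⟩ := hall.tgt.chi_open
  obtain ⟨u₀, hu₀⟩ := IsCyclic.exists_generator (α := (ZMod ℓ)ˣ)
  obtain ⟨γ, hγ⟩ := hall.tgt.chi_surj u₀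
  let red : ℤ_[ℓ]ˣ →* (ZMod ℓ)ˣ := Units.map (PadicInt.toZMod (p := ℓ)).toMonoidHom
  let χS : Gal(S/ℚ) →* (ZMod ℓ)ˣ := red.comp (chi ℓ ℚ S)
  have hχW : ∀ w ∈ W₀, χS w = 1 := by
    intro w hw
    ext
    exact hW₀χ w hw
  have hχγ : χS γ = u₀ := by
    ext
    exact hγ
  let xS : XChar ℓ Gal(S/ℚ) := ⟨_, hall.tgt.logchi⟩
  let xΩ : XChar ℓ Gal(Ω/ℚ) := ⟨_, hall.src.logchi⟩
  let z : XChar ℓ (genT U α) := XChar.comap β hβ xS
    - XChar.comap (genT U α).subtype continuous_subtype_val xΩ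
  have hz : ∀ t : genT U α, z.1 t = logChi ℓ ℚ S (β t) - logChi ℓ ℚ Ω (t : Gal(Ω/ℚ)) :=
    fun t => rfl
  have hz0 : z = 0 := by
    apply hall.src.detect_one _ hT z
    refine (gen_frobenius_generation hall hsq U hU α hα hαo β hβ hβα W₀ hW₀o γ).mono ?_
    rintro p ⟨hp, hpℓ, P, s, f, hP, hPp, hs, hf, hfle, h, hχ, hmem⟩
    have hf1 : f = 1 := by
      apply gen_f_eq_one ℓ _ f hf hfle hℓ (red (chi ℓ ℚ Ω s))
      intro y
      obtain ⟨a, ha, w, hw, haw⟩ := Subgroup.mem_sup_of_normal_right.1 hmem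
      obtain ⟨k, rfl⟩ := Subgroup.mem_zpowers_iff.1 ha
      have h1 : u₀ = (red (chi ℓ ℚ Ω s) ^ f) ^ k := by
        rw [← hχγ, ← haw, map_mul, hχW w hw, mul_one, map_zpow]
        change (red (chi ℓ ℚ S (β ⟨s ^ f, h⟩))) ^ k = _
        rw [hχ, map_pow, map_pow]
      have h2 : u₀ ∈ Subgroup.zpowers (red (chi ℓ ℚ Ω s) ^ f) := ⟨k, h1.symm⟩
      exact (Subgroup.zpowers_le.2 h2) (hu₀ y)
    subst hf1
    have hsT : s ∈ genT U α := by simpa using h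
    refine ⟨hp, hpℓ, P, hP, hPp, ⟨s, hsT⟩, hs, ?_⟩
    rw [hz]
    have e : (⟨s ^ 1, h⟩ : genT U α) = ⟨s, hsT⟩ := by ext; simp
    rw [e, pow_one] at hχ
    unfold logChi
    rw [hχ, sub_self]
  have := hz t
  rw [hz0] at this
  have h0 : (0 : XChar ℓ (genT U α)).1 t = 0 := rfl
  rw [h0] at this
  exact (sub_eq_zero.1 this.symm)

end

/-- OUTPUT OF GEN (Lemma 4.1 + Theorem 4.4).  `U` normal clopen in `𝒢 = Gal(Ω/ℚ)`,
`α : U → P = Gal(S/ℚ)` continuous with open image.  Then `α` extends to a continuous SURJECTIVE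
homomorphism `β : T → P`, `T` the normaliser of `ker α`, and `log χ_ℓ ∘ β = log χ_ℓ` on `T` for
all odd primes `ℓ ≡ 1 mod [𝒢 : T]!`. -/
theorem gen_main {Ω S : Type} [Field Ω] [Algebra ℚ Ω] [IsGalois ℚ Ω] [Field S] [Algebra ℚ S]
    [IsGalois ℚ S] (hall : ∀ (ℓ : ℕ) [Fact ℓ.Prime], ℓ ≠ 2 → GenAll ℓ Ω S)
    (hsq : ∀ a : S, ∃ b : S, b ^ 2 = a)
    (U : Subgroup Gal(Ω/ℚ)) [U.Normal] (hU : IsOpen (U : Set Gal(Ω/ℚ)))
    (α : U →* Gal(S/ℚ)) (hα : Continuous α) (hαo : IsOpen (Set.range α))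
    (hrig : ∀ θ : α.range ≃* α.range, Continuous θ →
      ∃! b : Gal(S/ℚ), ∀ a : α.range, (θ a : Gal(S/ℚ)) = b * a * b⁻¹) :
    ∃ β : genT U α →* Gal(S/ℚ), Continuous β ∧
      (∀ (u : U) (h : (u : Gal(Ω/ℚ)) ∈ genT U α), β ⟨u, h⟩ = α u) ∧
      Function.Surjective β ∧
      ∀ (ℓ : ℕ) [Fact ℓ.Prime], ℓ ≠ 2 → ((genT U α).index)! ∣ ℓ - 1 →
        ∀ t : genT U α, logChi ℓ ℚ S (β t) = logChi ℓ ℚ Ω (t : Gal(Ω/ℚ)) := by
  obtain ⟨β, hβ, hβα⟩ := gen_normalizer_ext U hU α hα hrig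
  have : Fact (Nat.Prime 3) := ⟨by norm_num⟩
  exact ⟨β, hβ, hβα, gen_surjective (hall 3 (by norm_num)) hsq U hU α hα hαo β hβ hβα,
    fun ℓ _ h2 hℓ t => gen_logchi (hall ℓ h2) hsq U hU α hα hαo β hβ hβα hℓ t⟩

end Claimed.Agent.R239
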