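/-
Row 239, package GEN: THE GLUE.  The hypothesis bundle `GenAll ℓ Ω S` of GEN from the interface
layers (`Iface`).  Owner: helper123.
-/
import Claimed.Agent.R239.Iface
import Claimed.Agent.R239.GEN.Main

set_option autoImplicit false

namespace Claimed.Agent.R239

open NumberField Module Claims.C0403
open scoped Pointwise

section General

variable {E : Type} [Field E] [Algebra ℚ E] [IsGalois ℚ E]

/-- an integer lies in a prime over `p` iff it is divisible by `p`. -/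
theorem gen_glue_int_mem {R : Type*} [CommRing R] {P : Ideal R} (hP : P ≠ ⊤) {p : ℕ}
    (hp : p.Prime) (h : (p : R) ∈ P) (n : ℤ) : (n : R) ∈ P ↔ (p : ℤ) ∣ n := by
  constructor
  · intro hn
    by_contra hnd
    have hc : IsCoprime (p : ℤ) n :=
      (Nat.prime_iff_prime_int.mp hp).coprime_iff_not_dvd.mpr hnd
    obtain ⟨a, b, hab⟩ := hc
    apply hP
    rw [Ideal.eq_top_iff_one]
    have h1 : (a : R) * (p : R) + (b : R) * (n : R) = 1 := by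
      exact_mod_cast congrArg (Int.cast : ℤ → R) hab
    rw [← h1]
    exact P.add_mem (P.mul_mem_left _ h) (P.mul_mem_left _ hn)
  · rintro ⟨c, rfl⟩
    push_cast
    exact P.mul_mem_right _ h

theorem gen_glue_ratInt (x : 𝓞 ℚ) : ∃ n : ℤ, x = (n : 𝓞 ℚ) := by
  refine ⟨Rat.ringOfIntegersEquiv x, ?_⟩
  have h := (Rat.ringOfIntegersEquiv.symm_apply_apply x).symm
  rw [h]
  simp

/-- transitivity over `ℚ`. -/
theorem gen_glue_trans (p : ℕ) (Q Q' : Ideal (𝓞 E)) (hp : p.Prime) (hQ : Q.IsMaximal)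
    (hQ' : Q'.IsMaximal) (h : Over Q p) (h' : Over Q' p) : ∃ g : Gal(E/ℚ), g • Q = Q' := by
  have h1 : Q.under (𝓞 ℚ) = Q'.under (𝓞 ℚ) := by
    ext x
    obtain ⟨n, rfl⟩ := gen_glue_ratInt x
    rw [Ideal.mem_under, Ideal.mem_under, map_intCast, gen_glue_int_mem hQ.ne_top hp h,
      gen_glue_int_mem hQ'.ne_top hp h']
  obtain ⟨g, hg⟩ := hilb_transitive ℚ Q Q' h1
  exact ⟨g, hg.symm⟩

theorem gen_glue_finrank (V : Subgroup Gal(E/ℚ)) (hV : IsOpen (V : Set Gal(E/ℚ)))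
    (inst : Module ℚ (fld V)) : @Module.finrank ℚ (fld V) _ _ inst = V.index := by
  have h2 := IntermediateField.finrank_eq_fixingSubgroup_index (F := ℚ) (E' := E) (fld V)
  rw [gen_fixing_fld V hV] at h2
  rw [← h2]
  congr 1
  exact Subsingleton.elim _ _

theorem gen_glue_normAt_top (P : Ideal (𝓞 E)) (hP : P.IsMaximal) {p : ℕ} (hp : p.Prime)
    (h : Over P p) : normAt (⊤ : Subgroup Gal(E/ℚ)) P = p := by
  obtain ⟨f, hf0, hf1, hf⟩ := hil_normAt (⊤ : Subgroup Gal(E/ℚ)) isOpen_univ P hp h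
  rw [gen_glue_finrank ⊤ isOpen_univ, Subgroup.index_top] at hf1
  have : f = 1 := le_antisymm hf1 hf0
  rw [hf, this, pow_one]

/-- a Frobenius lift over `ℚ` lying in `V` is a Frobenius lift for `V`, of degree one. -/
theorem gen_glue_frob_sub (V : Subgroup Gal(E/ℚ)) (hV : IsOpen (V : Set Gal(E/ℚ)))
    (P : Ideal (𝓞 E)) (hP : P.IsMaximal) {p : ℕ} (hp : p.Prime) (h : Over P p) {σ : Gal(E/ℚ)}
    (hσ : IsFrob ⊤ P σ) (hσV : σ ∈ V) : IsFrob V P σ ∧ normAt V P = p := by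
  obtain ⟨f, hf0, hf1, -, hf2⟩ := hil_tower hV le_top hσ
  have hf : f = 1 := Nat.dvd_one.mp (hf2 1 one_pos ⟨1, one_mem _, by simpa using hσV⟩)
  have hN := gen_glue_normAt_top P hP hp h
  rw [hf, pow_one, hN] at hf1
  refine ⟨⟨hσV, fun y => ?_⟩, hf1⟩
  have := hσ.2 y
  rwa [hN, ← hf1] at this

omit [IsGalois ℚ E] in
/-- primes of `E` over a given rational prime exist. -/
theorem gen_glue_exists_over {p : ℕ} (hp : p.Prime) :
    ∃ P : Ideal (𝓞 E), P.IsMaximal ∧ Over P p := by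
  have hpr : (Ideal.span {(p : ℤ)}).IsPrime := by
    rw [Ideal.span_singleton_prime (by exact_mod_cast hp.ne_zero)]
    exact Nat.prime_iff_prime_int.mp hp
  have hpm : (Ideal.span {(p : ℤ)}).IsMaximal := hpr.isMaximal (by simpa using hp.ne_zero)
  have : CharZero E := algebraRat.charZero E
  obtain ⟨P, hPm, hP⟩ :=
    Ideal.exists_maximal_ideal_liesOver_of_isIntegral (S := 𝓞 E) (Ideal.span {(p : ℤ)})
  refine ⟨P, hPm, ?_⟩
  have h1 : (p : ℤ) ∈ P.under ℤ := by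
    rw [← hP.over]
    exact Ideal.mem_span_singleton_self _
  rw [Ideal.mem_under] at h1
  simpa [Over] using h1

theorem gen_glue_hil : GenHil E where
  resChar Q hQ := hil_exists_over Q
  trans p Q Q' hp hQ hQ' h h' := gen_glue_trans p Q Q' hp hQ hQ' h h'
  closed Q hQ := hil_decomp_isClosed Q
  comm Q hQ g hg h hh := hil_comm_mem_inert Q hg hh
  ram_finite V hV := by
    refine (hil_unram_cofinite (⊤ : Subgroup Gal(E/ℚ)) V hV le_top).subset ?_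
    rintro p ⟨hp, Q, hQ, hQp, hn⟩
    refine ⟨hp, Q, hQ, hQp, fun h => hn ?_⟩
    intro g hg
    exact h ⟨hg, trivial⟩

end General

section Src

variable {ℓ : ℕ} [Fact ℓ.Prime] {Ω : Type} [Field Ω] [Algebra ℚ Ω] [IsGalois ℚ Ω]

theorem gen_glue_not_over {E : Type} [Field E] {P : Ideal (𝓞 E)} (hP : P.IsMaximal) {p : ℕ}
    (hp : p.Prime) (h : Over P p) (hne : p ≠ ℓ) : ¬ Over P ℓ :=
  fun h' => hne (gen_over_unique hP.ne_top hp Fact.out h h')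

/-- `GenSrc` except for the detection statement, which is passed as a hypothesis. -/
theorem gen_glue_src (hΩ : SolvablyClosed Ω)
    (hdet : ∀ (U : Subgroup Gal(Ω/ℚ)), IsOpen (U : Set Gal(Ω/ℚ)) → ∀ x : XChar ℓ U,
      {q : ℕ | q.Prime ∧ ∃ (P : Ideal (𝓞 Ω)) (σ : Gal(Ω/ℚ)) (hσ : IsFrob U P σ), P.IsMaximal ∧
        Over P q ∧ q ≠ ℓ ∧ normAt U P = q ∧ x.1 ⟨σ, hσ.1⟩ = 0}.Infinite → x = 0) :
    GenSrc ℓ Ω where
  detect_one V hV x hx := by
    refine hdet V hV x (hx.mono ?_)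
    rintro p ⟨hp, hpℓ, P, hP, hPp, σ, hσ, hxσ⟩
    obtain ⟨h1, h2⟩ := gen_glue_frob_sub V hV P hP hp hPp hσ σ.2
    exact ⟨hp, P, σ, h1, hP, hPp, hpℓ, h2, hxσ⟩
  frob p P τ hP hPp hp hpℓ hτ := by
    have := hP
    obtain ⟨σ, h1, h2⟩ := tame_exists_frob hΩ (U := ⊤) (V := ⊤) isOpen_univ le_rfl
      (fun _ _ _ _ => trivial) (gen_glue_not_over hP hp hPp hpℓ) hτ
    rw [gen_glue_normAt_top P hP hp hPp] at h2
    exact ⟨σ, h1, h2⟩
  tame_conj V hV P τ τ' hP hPℓ hτ hτ' := by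
    have := hP
    exact tame_conj hΩ hV hPℓ hτ hτ'
  logchi := logChi_mem

end Src

section Tgt

variable {ℓ : ℕ} [Fact ℓ.Prime] {S : Type} [Field S] [Algebra ℚ S] [IsGalois ℚ S]

theorem gen_glue_toZMod_isOpen : IsOpen {x : ℤ_[ℓ] | PadicInt.toZMod x = 1} := by
  have h : {x : ℤ_[ℓ] | PadicInt.toZMod x = 1} = Metric.ball 1 1 := by
    ext x
    rw [Set.mem_ofPred_eq, mem_ball_iff_norm, ← PadicInt.mem_nonunits,
      ← IsLocalRing.mem_maximalIdeal, ← PadicInt.ker_toZMod, RingHom.mem_ker, map_sub, map_one,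
      sub_eq_zero]
  rw [h]
  exact Metric.isOpen_ball

theorem gen_glue_tgt (hS : SolvablyClosed S) : GenTgt ℓ S where
  spl W _ hW γ := by
    refine (spl_cyclic (⊤ : Subgroup Gal(S/ℚ)) W hW le_top
      (fun u _ v hv => ‹W.Normal›.conj_mem v hv u) γ trivial).mono ?_
    rintro q ⟨hq, P, σ, hP, hPq, -, hun, hσ, hσγ⟩
    have := hP
    refine ⟨hq, P, hP, hPq, fun g hg => hun ⟨hg, trivial⟩, ?_⟩
    rw [← hσγ]
    apply le_antisymm
    · refine sup_le ?_ le_sup_right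
      intro g hg
      have h1 := hil_decomp_closure isOpen_univ hσ (g := g) ⟨hg, trivial⟩
      have hopen : IsOpen ((Subgroup.zpowers σ ⊔ W : Subgroup Gal(S/ℚ)) : Set Gal(S/ℚ)) :=
        Subgroup.isOpen_mono le_sup_right hW
      have hclosed := Subgroup.isClosed_of_isOpen _ hopen
      refine hclosed.closure_subset_iff.mpr ?_ h1
      intro x hx
      exact (sup_le_sup_left (fun y hy => hun hy) _ : _ ≤ Subgroup.zpowers σ ⊔ W) hx
    · refine sup_le ?_ le_sup_right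
      rw [Subgroup.zpowers_le]
      exact Subgroup.mem_sup_left (hil_frob_mem_decomp hσ)
  inter Q Q' hQ hQ' g hg hg' hne := by
    have := hQ
    have := hQ'
    exact hil_trivial_inter hS Q Q' hne hg hg'
  logchi := logChi_mem
  chi_open := by
    let ψ : Gal(S/ℚ) →* ZMod ℓ :=
      ((PadicInt.toZMod (p := ℓ) : ℤ_[ℓ] →+* ZMod ℓ) : ℤ_[ℓ] →* ZMod ℓ).comp
        ((Units.coeHom ℤ_[ℓ]).comp (chi ℓ ℚ S))
    refine ⟨ψ.ker, inferInstance, ?_, fun g hg => hg⟩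
    have hc : Continuous fun g : Gal(S/ℚ) => ((chi ℓ ℚ S g : ℤ_[ℓ]ˣ) : ℤ_[ℓ]) :=
      Units.continuous_val.comp (cyclotomicCharacter.continuous ℓ ℚ S)
    exact gen_glue_toZMod_isOpen.preimage hc
  chi_surj u := by
    have hℓ : ℓ.Prime := Fact.out
    have : NeZero ℓ := ⟨hℓ.ne_zero⟩
    obtain ⟨q, hqℓ, hq, hqu⟩ := Nat.forall_exists_prime_gt_and_eq_mod u.isUnit ℓ
    obtain ⟨Q, hQ, hQq⟩ := gen_glue_exists_over (E := S) hq
    have := hQ
    obtain ⟨σ, hσ⟩ := hil_exists_frob (⊤ : Subgroup Gal(S/ℚ)) isOpen_univ Q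
    refine ⟨σ, ?_⟩
    rw [chi_frob hS (gen_glue_not_over hQ hq hQq hqℓ.ne') hσ, gen_glue_normAt_top Q hQ hq hQq,
      map_natCast, hqu]

end Tgt

section LC

variable {ℓ : ℕ} [Fact ℓ.Prime] {Ω : Type} [Field Ω] [Algebra ℚ Ω] [IsGalois ℚ Ω]
  {S : Type} [Field S] [Algebra ℚ S] [IsGalois ℚ S]

theorem gen_glue_lc (hΩ : SolvablyClosed Ω) (hS : SolvablyClosed S) (hodd : ℓ ≠ 2) :
    GenLC ℓ Ω S where
  main V hV φ hφ _ P τ hP hPℓ hτ hact := by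
    have := hP
    obtain ⟨Q, hQ, hQℓ, hτQ, hall⟩ :=
      lc_main hΩ hS V hV φ hφ hodd P hPℓ V hV le_rfl τ hτ hact
    refine ⟨Q, hQ, hQℓ, hτQ, fun g hg ⟨n, hn⟩ => ?_⟩
    refine hall g g.2 hg (subset_closure ?_)
    have h1 : (g : Gal(Ω/ℚ)) * τ * (g : Gal(Ω/ℚ))⁻¹ = (τ : Gal(Ω/ℚ)) ^ n := by
      have := congrArg Subtype.val hn
      simpa using this
    rw [h1]
    exact Subgroup.npow_mem_zpowers _ n
  cover V hV φ hφ hφo W hφW := by
    classical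
    have hW : IsOpen (W : Set Gal(S/ℚ)) := by
      refine Subgroup.isOpen_mono (H₁ := φ.range) ?_ (by rw [MonoidHom.coe_range]; exact hφo)
      rintro _ ⟨g, rfl⟩
      exact hφW g
    have hfin := lc_coverage hΩ hS V hV φ hφ hφo hodd W hW hφW
    set bad := {𝔮 : Ideal (𝓞 (fld W)) | 𝔮.IsMaximal ∧
      ¬ ∃ (P₁ : Ideal (𝓞 Ω)) (τ : Gal(Ω/ℚ)) (hτ : IsTameGen ℓ V P₁ τ) (P₂ : Ideal (𝓞 S)),
        P₁.IsMaximal ∧ ¬ Over P₁ ℓ ∧ P₂.IsMaximal ∧ φ ⟨τ, hτ.mem.2⟩ ≠ 1 ∧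
        φ ⟨τ, hτ.mem.2⟩ ∈ inert ℚ P₂ ∧ below W P₂ = 𝔮} with hbad
    have hB : {q : ℕ | q.Prime ∧ ∃ 𝔮 ∈ bad, (q : 𝓞 (fld W)) ∈ 𝔮}.Finite := by
      have hsub : {q : ℕ | q.Prime ∧ ∃ 𝔮 ∈ bad, (q : 𝓞 (fld W)) ∈ 𝔮} ⊆
          ⋃ 𝔮 ∈ bad, {q : ℕ | q.Prime ∧ (q : 𝓞 (fld W)) ∈ 𝔮} := by
        rintro q ⟨hq, 𝔮, h𝔮, hmem⟩
        exact Set.mem_biUnion h𝔮 ⟨hq, hmem⟩
      refine (hfin.biUnion fun 𝔮 h𝔮 => ?_).subset hsub
      apply Set.Subsingleton.finite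
      intro q hq q' hq'
      exact gen_over_unique h𝔮.1.ne_top hq.1 hq'.1 hq.2 hq'.2
    refine ⟨hB.toFinset, fun q Q hq hqB hQ hQq => ?_⟩
    have := hQ
    have hmax := hil_below_isMaximal W Q
    have hmem : (q : 𝓞 (fld W)) ∈ below W Q := by
      rw [Ideal.mem_under, map_natCast]
      exact hQq
    have hgood : below W Q ∉ bad := fun hb => hqB (hB.mem_toFinset.mpr ⟨hq, _, hb, hmem⟩)
    have hex : ∃ (P₁ : Ideal (𝓞 Ω)) (τ : Gal(Ω/ℚ)) (hτ : IsTameGen ℓ V P₁ τ) (P₂ : Ideal (𝓞 S)),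
        P₁.IsMaximal ∧ ¬ Over P₁ ℓ ∧ P₂.IsMaximal ∧ φ ⟨τ, hτ.mem.2⟩ ≠ 1 ∧
        φ ⟨τ, hτ.mem.2⟩ ∈ inert ℚ P₂ ∧ below W P₂ = below W Q := by
      by_contra hcon
      exact hgood ⟨hmax, hcon⟩
    obtain ⟨P₁, τ, hτ, P₂, hP₁, hP₁ℓ, hP₂, hact, hin, hbel⟩ := hex
    have := hP₂
    obtain ⟨w, hw, hwQ⟩ := hil_transitive W hW Q P₂ hbel.symm
    exact ⟨w, hw, P₁, ⟨τ, hτ.mem.2⟩, hP₁, hP₁ℓ, hτ, hact, hwQ ▸ hin⟩

end LC

section All

variable {ℓ : ℕ} [Fact ℓ.Prime] {Ω : Type} [Field Ω] [Algebra ℚ Ω] [IsGalois ℚ Ω]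
  {S : Type} [Field S] [Algebra ℚ S] [IsGalois ℚ S]

theorem gen_glue_xl (hS : SolvablyClosed S) (hodd : ℓ ≠ 2) : GenXL ℓ S where
  fin V hV := xl_finite hS hodd V hV
  dim_le V hV := by
    have := xl_finrank_le hS hodd V hV
    rwa [gen_glue_finrank V hV] at this
  dim_diff V V' hV hVV' := by
    classical
    have hV' : IsOpen (V' : Set Gal(S/ℚ)) := Subgroup.isOpen_mono hVV' hV
    have i1 := hil_numberField V hV
    have i2 := hil_numberField V' hV'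
    have := xl_finrank_diff hS hodd V' V hV hVV'
    unfold genR2
    rw [Nat.card_eq_fintype_card, Nat.card_eq_fintype_card]
    convert this using 2
  unram W hW x Q hQ hQℓ g hg := by
    have := hQ
    exact xchar_unram hS hW hQℓ x ⟨hg, g.2⟩

/-- THE GLUE: everything GEN consumes follows from the interface. -/
theorem gen_all (hΩ : SolvablyClosed Ω) (hS : SolvablyClosed S) (hodd : ℓ ≠ 2) :
    GenAll ℓ Ω S where
  xl := gen_glue_xl hS hodd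
  hilΩ := gen_glue_hil
  hilS := gen_glue_hil
  src := gen_glue_src hΩ (fun U hU x h => xl_detect hΩ hodd U hU x h)
  tgt := gen_glue_tgt hS
  lc := gen_glue_lc hΩ hS hodd

end All

end Claimed.Agent.R239
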